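import Vale.Agent.P168.Limit.Sub
import Vale.Agent.P168.Tel.Step
import Mathlib.MeasureTheory.Measure.Prokhorov

/-!
P168: the array of spins with the laws of a limit of replicas.
-/

open MeasureTheory ProbabilityTheory Filter Topology
open scoped NNReal ENNReal BoundedContinuousFunction

noncomputable section

namespace Vale.Agent.P168

namespace LimArr

variable {K r r' M M' n : ℕ}

/-- The levels of a list of replicas in the tree. -/
def lv (p : Fin r → Pt K) : Lvls K r :=
  fun a b => ⟨com' (p a).1 (p b).1, Nat.lt_succ_of_le (com'_le _ _)⟩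

theorem isTree_lv (p : Fin r → Pt K) : (lv p).IsTree := by
  refine ⟨fun a => Fin.ext (com'_self _), fun a b => Fin.ext (com'_comm _ _), fun a b c => ?_⟩
  rw [Fin.le_def, Fin.coe_min]
  show min (com' (p a).1 (p b).1) (com' (p b).1 (p c).1) ≤ com' (p a).1 (p c).1
  by_contra h
  rw [not_le, lt_min_iff] at h
  have hl : com' (p a).1 (p c).1 < K := lt_of_lt_of_le h.1 (com'_le _ _)
  have h1 := (lt_com'_iff _ _ ⟨_, hl⟩).1 h.1
  have h2 := (lt_com'_iff _ _ ⟨_, hl⟩).1 h.2
  exact lt_irrefl _ ((lt_com'_iff (p a).1 (p c).1 ⟨_, hl⟩).2 fun i hi =>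
    (h1 i hi).trans (h2 i hi))

theorem lv_place {U : Lvls K r} (hU : U.IsTree) : lv (place U) = U :=
  funext fun a => funext fun b => Fin.ext (com'_place hU a b)

theorem isTree_comp {U : Lvls K r} (hU : U.IsTree) (e : Fin r' → Fin r) :
    Lvls.IsTree (K := K) (n := r') fun a b => U (e a) (e b) :=
  ⟨fun _ => hU.1 _, fun _ _ => hU.2.1 _ _, fun _ _ _ => hU.2.2 _ _ _⟩

theorem isTree_perm {U : Lvls K r} {e : Equiv.Perm (Fin r)}
    (h : Lvls.IsTree (K := K) (n := r) fun a b => U (e a) (e b)) : U.IsTree := by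
  simpa using isTree_comp h e.symm

/-- The weighted sum of a function of the spins at given levels. -/
def wsum (w : Wts K) (U : Lvls K r) (f : (Fin r → Fin M → Bool) → ℝ) : ℝ := ∑ s, w r M U s * f s

/-- The mean of a function of the spins given the levels. -/
def cnd (w : Wts K) (U : Lvls K r) (f : (Fin r → Fin M → Bool) → ℝ) : ℝ :=
  wsum w U f / treeW K r U

variable {w : Wts K} (hw : IsLim w)

include hw in
theorem wsum_perm (e : Equiv.Perm (Fin r)) {τ : Fin M → Fin M'} (hτ : Function.Injective τ)
    (U : Lvls K r) (f : (Fin r → Fin M → Bool) → ℝ) :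
    wsum w U (fun s => f fun a i => s (e a) (τ i)) = wsum w (fun a b => U (e a) (e b)) f := by
  classical
  have h := hw.pull (fun a => e a) τ e.injective hτ
    (fun U' σ => if U' = (fun a b => U (e a) (e b)) then f σ else 0)
  unfold ev at h
  dsimp only at h
  rw [Finset.sum_eq_single U (fun U' _ hU' => Finset.sum_eq_zero fun s _ => by
      rw [if_neg fun hc => hU' (funext fun a => funext fun b => by
        simpa using congrFun (congrFun hc (e.symm a)) (e.symm b)), mul_zero]) (by simp),
    Finset.sum_eq_single (fun a b => U (e a) (e b)) (fun U' _ hU' => by simp [hU']) (by simp)] at h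
  simpa [wsum] using h

variable (hone : ∀ M (U : Lvls K 1), U.IsTree → ∑ s, w 1 M U s = 1)
  (hstep : ∀ r M, 1 ≤ r → ∀ U : Lvls K (r + 1), U.IsTree → ∀ s : Fin r → Fin M → Bool,
    (∑ s' : Fin (r + 1) → Fin M → Bool,
      if (fun a => s' a.castSucc) = s then w (r + 1) M U s' else 0) = w r M U.init s * attach U)

include hstep in
theorem wsum_init (hr : 1 ≤ r) {U : Lvls K (r + 1)} (hU : U.IsTree)
    (f : (Fin r → Fin M → Bool) → ℝ) :
    wsum w U (fun s => f fun a => s a.castSucc) = wsum w U.init f * attach U := by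
  classical
  unfold wsum
  rw [Finset.sum_mul]
  calc ∑ s', w (r + 1) M U s' * f (fun a => s' a.castSucc)
      = ∑ s', ∑ s, (if (fun a => s' a.castSucc) = s then w (r + 1) M U s' else 0) * f s :=
        Finset.sum_congr rfl fun s' _ => by simp [ite_mul]
    _ = _ := by
        rw [Finset.sum_comm]
        refine Finset.sum_congr rfl fun s _ => ?_
        rw [← Finset.sum_mul, hstep r M hr U hU s]
        ring

include hone hstep in
theorem sum_w : ∀ {r : ℕ}, 1 ≤ r → ∀ (M : ℕ) {U : Lvls K r}, U.IsTree →
    ∑ s, w r M U s = treeW K r U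
  | 0, h, _, _, _ => absurd h (by omega)
  | 1, _, M, U, hU => by simp [hone M U hU, treeW, hU.1 0]
  | r + 2, _, M, U, hU => by
    have h := wsum_init hstep (Nat.succ_pos r) hU (fun _ : Fin (r + 1) → Fin M → Bool => (1 : ℝ))
    simp only [wsum, mul_one] at h
    rw [h, sum_w (Nat.succ_pos r) M hU.init, treeW_succ (Nat.succ_pos r) hU]

include hw hone hstep in
theorem treeW_perm (hr : 1 ≤ r) (e : Equiv.Perm (Fin r)) {U : Lvls K r} (hU : U.IsTree) :
    treeW K r (fun a b => U (e a) (e b)) = treeW K r U := by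
  have h := wsum_perm hw e (τ := (id : Fin 0 → Fin 0)) Function.injective_id U fun _ => (1 : ℝ)
  simp only [wsum, mul_one] at h
  rw [sum_w hone hstep hr 0 hU, sum_w hone hstep hr 0 (isTree_comp hU e)] at h
  exact h.symm

include hstep in
theorem cnd_prefix (hr : 1 ≤ r) : ∀ (d : ℕ) {U : Lvls K (r + d)}, U.IsTree →
    ∀ f : (Fin r → Fin M → Bool) → ℝ,
      cnd w U (fun s => f fun a => s (Fin.castAdd d a)) =
        cnd w (fun a b => U (Fin.castAdd d a) (Fin.castAdd d b)) f
  | 0, U, _, f => rfl
  | d + 1, U, hU, f => by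
    refine Eq.trans ?_ (cnd_prefix hr d hU.init f)
    unfold cnd
    show wsum w U (fun s => (fun t => f fun a => t (Fin.castAdd d a)) fun a => s a.castSucc) /
      treeW K (r + d + 1) U = _
    have h := wsum_init hstep (le_add_right hr) hU (fun t => f fun a => t (Fin.castAdd d a))
    dsimp only at h ⊢
    erw [h, treeW_succ (le_add_right hr) hU]
    have hpos := treeW_pos hU
    erw [treeW_succ (le_add_right hr) hU] at hpos
    exact mul_div_mul_right _ _ (right_ne_zero_of_mul hpos.ne')

include hw hone hstep in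
/-- Replicas and sites along injections have the same conditional means. -/
theorem cnd_pull (hr : 1 ≤ r) {ι : Fin r → Fin r'} (hι : Function.Injective ι)
    {τ : Fin M → Fin M'} (hτ : Function.Injective τ) {U : Lvls K r'} (hU : U.IsTree)
    (f : (Fin r → Fin M → Bool) → ℝ) :
    cnd w U (fun s => f fun a i => s (ι a) (τ i)) = cnd w (fun a b => U (ι a) (ι b)) f := by
  classical
  have hle : r ≤ r' := by simpa using Fintype.card_le_of_injective ι hι
  obtain ⟨d, rfl⟩ := Nat.exists_eq_add_of_le hle
  set c : Fin r → Fin (r + d) := Fin.castAdd d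
  have hc : Function.Injective c := Fin.castAdd_injective r d
  set E : {x // x ∈ Set.range c} ≃ {x // x ∈ Set.range ι} :=
    (Equiv.ofInjective c hc).symm.trans (Equiv.ofInjective ι hι)
  set e : Equiv.Perm (Fin (r + d)) := E.extendSubtype
  have he : ∀ a, e (c a) = ι a := fun a => by
    rw [show e (c a) = E ⟨c a, a, rfl⟩ from E.extendSubtype_apply_of_mem (c a) ⟨a, rfl⟩]
    simp [E, Equiv.ofInjective_symm_apply]
  set F : (Fin (r + d) → Fin M → Bool) → ℝ := fun t => f fun a => t (c a)
  have h1 : cnd w U (fun s => f fun a i => s (ι a) (τ i)) =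
      cnd w (fun a b => U (e a) (e b)) F := by
    unfold cnd
    rw [treeW_perm hw hone hstep (le_add_right hr) e hU, ← wsum_perm hw e hτ U F]
    simp only [F, he]
  rw [h1, cnd_prefix hstep hr d (isTree_comp hU e) f]
  simp only [c] at he
  simp only [he]

/-- The spins at the first `k` replicas and sites, the others `false`. -/
def emb (e : ℕ ≃ Pt K) (k : ℕ) (s : Fin (k + 1) → Fin (k + 1) → Bool) : Pt K → ℕ → Bool :=
  fun a i => if h : e.symm a < k + 1 ∧ i < k + 1 then s ⟨e.symm a, h.1⟩ ⟨i, h.2⟩ else false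

/-- The first `k` replicas. -/
def pts (e : ℕ ≃ Pt K) (k : ℕ) : Fin (k + 1) → Pt K := fun a => e a

end LimArr

open LimArr

variable {K : ℕ}

/-- The array of a limit law of replicas. -/
theorem exists_arr {w : Wts K} (hw : IsLim w)
    (hone : ∀ M (U : Lvls K 1), U.IsTree → ∑ s, w 1 M U s = 1)
    (hstep : ∀ r M, 1 ≤ r → ∀ U : Lvls K (r + 1), U.IsTree → ∀ s : Fin r → Fin M → Bool,
      (∑ s' : Fin (r + 1) → Fin M → Bool,
        if (fun a => s' a.castSucc) = s then w (r + 1) M U s' else 0) = w r M U.init s * attach U) :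
    ∃ A : Arr K, A.RepSym ∧
      ∀ r M (g : Tst K r M), 1 ≤ r → A.rep (fun U σ => g U fun a i => σ a i) = ev w g := by
  classical
  obtain ⟨e⟩ : Nonempty (ℕ ≃ Pt K) := nonempty_equiv_of_countable
  set P : (k : ℕ) → (Fin (k + 1) → Fin (k + 1) → Bool) → ℝ := fun k s =>
    w (k + 1) (k + 1) (lv (pts e k)) s / treeW K (k + 1) (lv (pts e k))
  have hP0 : ∀ k s, 0 ≤ P k s := fun k s =>
    div_nonneg (hw.nonneg _ _ _ _) (treeW_nonneg _)
  have hP1 : ∀ k, ∑ s, P k s = 1 := fun k => by
    simp only [P, ← Finset.sum_div]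
    rw [sum_w hone hstep (Nat.succ_pos k) _ (isTree_lv _), div_self (treeW_pos (isTree_lv _)).ne']
  set ρ : ℕ → Measure (Pt K → ℕ → Bool) := fun k =>
    ∑ s, ENNReal.ofReal (P k s) • Measure.dirac (emb e k s)
  have hρ : ∀ k, IsProbabilityMeasure (ρ k) := fun k => ⟨by
    simp only [ρ, Measure.coe_finsetSum, Finset.sum_apply, Measure.smul_apply, measure_univ,
      smul_eq_mul, mul_one]
    rw [← ENNReal.ofReal_sum_of_nonneg fun s _ => hP0 k s, hP1, ENNReal.ofReal_one]⟩
  have hint : ∀ k (F : (Pt K → ℕ → Bool) → ℝ),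
      ∫ σ, F σ ∂ρ k = cnd w (lv (pts e k)) fun s => F (emb e k s) := fun k F => by
    simp only [ρ]
    rw [integral_finsetSum_measure fun s _ =>
      (integrable_dirac (by simp)).smul_measure ENNReal.ofReal_ne_top, cnd, wsum, Finset.sum_div]
    refine Finset.sum_congr rfl fun s _ => ?_
    rw [integral_smul_measure, integral_dirac, ENNReal.toReal_ofReal (hP0 k s), smul_eq_mul]
    simp only [P]
    ring
  set R : ℕ → ProbabilityMeasure (Pt K → ℕ → Bool) := fun k => ⟨ρ k, hρ k⟩
  obtain ⟨m, -, hm⟩ := isCompact_univ.ultrafilter_le_nhds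
    ((Ultrafilter.of (atTop : Filter ℕ)).map R) (by simp)
  set law : Measure (Pt K → ℕ → Bool) := (m : Measure (Pt K → ℕ → Bool))
  have hu : Tendsto R
      ((Ultrafilter.of (atTop : Filter ℕ)) : Filter ℕ) (𝓝 m) := hm
  -- the law of finitely many spins
  have hcyl : ∀ {r M : ℕ}, 1 ≤ r → ∀ (p : Fin r → Pt K), Function.Injective p →
      ∀ (τ : Fin M → ℕ), Function.Injective τ → ∀ f : (Fin r → Fin M → Bool) → ℝ,
        ∫ σ, f (fun a i => σ (p a) (τ i)) ∂law = cnd w (lv p) f := by
    intro r M hr p hp τ hτ f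
    have hc : Continuous fun σ : Pt K → ℕ → Bool => f fun a i => σ (p a) (τ i) :=
      continuous_of_discreteTopology.comp (continuous_pi fun a => continuous_pi fun i =>
        (continuous_apply (τ i)).comp (continuous_apply (p a)))
    have h := ProbabilityMeasure.tendsto_iff_forall_integral_tendsto.1 hu
      (BoundedContinuousFunction.mkOfCompact ⟨_, hc⟩)
    refine tendsto_nhds_unique h (tendsto_const_nhds.congr' ?_)
    refine Ultrafilter.of_le atTop ?_
    filter_upwards [eventually_ge_atTop (∑ a, e.symm (p a) + ∑ i, τ i)] with k hk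
    have ha : ∀ a, e.symm (p a) < k + 1 := fun a => by
      have := Finset.single_le_sum (f := fun a => e.symm (p a)) (fun _ _ => Nat.zero_le _)
        (Finset.mem_univ a)
      omega
    have hi : ∀ i, τ i < k + 1 := fun i => by
      have := Finset.single_le_sum (f := τ) (fun _ _ => Nat.zero_le _) (Finset.mem_univ i)
      omega
    show cnd w (lv p) f = ∫ σ, f (fun a i => σ (p a) (τ i)) ∂ρ k
    rw [hint]
    simp only [emb, ha, hi, and_self, dite_true]
    rw [cnd_pull hw hone hstep hr (ι := fun a => (⟨e.symm (p a), ha a⟩ : Fin (k + 1)))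
      (fun a b h => hp (e.symm.injective (Fin.mk.inj h))) (τ := fun i => (⟨τ i, hi i⟩ : Fin (k + 1)))
      (fun a b h => hτ (Fin.mk.inj h)) (isTree_lv _) f]
    congr 1
    funext a b
    simp [lv, pts]
  have hinv : ∀ π : Pt K → Pt K, IsTreeMap π → ∀ τ : ℕ → ℕ, Function.Injective τ →
      law.map (fun σ a i => σ (π a) (τ i)) = law := by
    intro π hπ τ hτ
    have hT : Measurable fun (σ : Pt K → ℕ → Bool) (a : Pt K) (i : ℕ) => σ (π a) (τ i) := by
      fun_prop
    have : IsProbabilityMeasure (law.map fun σ a i => σ (π a) (τ i)) :=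
      Measure.isProbabilityMeasure_map hT.aemeasurable
    refine ext_of_forall_integral_eq_of_IsFiniteMeasure fun F => ?_
    rw [integral_map hT.aemeasurable F.continuous.measurable.aestronglyMeasurable]
    set res : ℕ → (Pt K → ℕ → Bool) → (Pt K → ℕ → Bool) := fun k σ =>
      emb e k fun a i => σ (pts e k a) i
    have hres : ∀ σ, Tendsto (fun k => res k σ) atTop (𝓝 σ) := fun σ =>
      tendsto_pi_nhds.2 fun a => tendsto_pi_nhds.2 fun i => by
        refine tendsto_const_nhds.congr' ?_
        filter_upwards [eventually_ge_atTop (e.symm a + i)] with k hk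
        have h : e.symm a < k + 1 ∧ i < k + 1 := by omega
        simp [res, emb, pts, h]
    have hresm : ∀ k, Measurable (res k) := fun k =>
      (measurable_of_countable (emb e k)).comp (by fun_prop)
    have lim : ∀ (T : (Pt K → ℕ → Bool) → (Pt K → ℕ → Bool)), Measurable T →
        Tendsto (fun k => ∫ σ, F (res k (T σ)) ∂law) atTop (𝓝 (∫ σ, F (T σ) ∂law)) := fun T hTm =>
      tendsto_integral_of_dominated_convergence (fun _ => ‖F‖)
        (fun k => (F.continuous.measurable.comp ((hresm k).comp hTm)).aestronglyMeasurable)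
        (integrable_const _) (fun k => ae_of_all _ fun σ => F.norm_coe_le_norm _)
        (ae_of_all _ fun σ => (F.continuous.tendsto _).comp (hres _))
    refine tendsto_nhds_unique (lim _ hT) ((lim id measurable_id).congr fun k => ?_)
    have hp : Function.Injective (pts e k) := e.injective.comp Fin.val_injective
    refine (hcyl (Nat.succ_pos k) (pts e k) hp Fin.val Fin.val_injective
      fun s => F (emb e k s)).trans ?_
    rw [show lv (pts e k) = lv fun a => π (pts e k a) from
      funext fun a => funext fun b => Fin.ext (hπ.2 _ _).symm]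
    exact (hcyl (Nat.succ_pos k) (fun a => π (pts e k a)) (hπ.1.comp hp)
      (fun i : Fin (k + 1) => τ i) (hτ.comp Fin.val_injective) fun s => F (emb e k s)).symm
  refine ⟨⟨law, inferInstance, hinv⟩, ?_, ?_⟩
  · intro n hn π g hg
    simp only [Arr.rep]
    refine Eq.trans ?_ (Equiv.sum_comp
      (Equiv.arrowCongr π.symm (Equiv.arrowCongr π.symm (Equiv.refl _)))
      fun U : Lvls K n => treeW K n U * ∫ σ, g U (fun a => σ (place U a)) ∂law)
    refine Finset.sum_congr rfl fun U _ => ?_
    have hU' : (Equiv.arrowCongr π.symm (Equiv.arrowCongr π.symm (Equiv.refl _)) U : Lvls K n) =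
        fun a b => U (π a) (π b) := by
      funext a b; simp
    rw [hU']
    by_cases hU : U.IsTree
    · rw [treeW_perm hw hone hstep hn π hU]
      exact congrArg _ (Arr.integral_place ⟨law, inferInstance, hinv⟩ hU (isTree_comp hU π) π
        π.injective (fun _ _ => rfl) (hg _))
    · rw [treeW_eq_zero hU, treeW_eq_zero fun h => hU (isTree_perm h), zero_mul, zero_mul]
  · intro r M g hr
    simp only [Arr.rep, ev]
    refine Finset.sum_congr rfl fun U _ => ?_
    by_cases hU : U.IsTree
    · rw [hcyl hr (place U) (place_injective U) Fin.val Fin.val_injective (g U), lv_place hU, cnd,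
        mul_div_cancel₀ _ (treeW_pos hU).ne', wsum]
    · rw [treeW_eq_zero hU, zero_mul]
      exact (Finset.sum_eq_zero fun s _ => by rw [hw.tree _ _ _ _ hU, zero_mul]).symm

end Vale.Agent.P168
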