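import Vale.Agent.P168.Conc.Flag
import Vale.Agent.P168.Tel.Step

/-!
P168: the mean products of the signs of the kinds span the symmetric functions of the levels of
replicas in distinct leaves.
-/

open MeasureTheory ProbabilityTheory Finset
open scoped NNReal ENNReal

noncomputable section

namespace Vale.Agent.P168

variable {K q D : ℕ}

theorem lrep_eq (U : Lvls K q) (l : Fin K) (a : Fin q) :
    lrep U l a = (U.node a (l + 1)).min.getD a := rfl

/-- Two replicas have the same representative at a level iff they share the node. -/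
theorem lrep_iff {U : Lvls K q} (hU : U.IsTree) (l : Fin K) (a b : Fin q) :
    lrep U l a = lrep U l b ↔ (l : ℕ) < (U a b : ℕ) := by
  have hl : (l : ℕ) + 1 ≤ K := l.isLt
  simp only [lrep_eq]
  constructor
  · intro h
    have h2 := place_mem hU a hl
    have h3 := place_mem hU b hl
    rw [← h] at h3
    have hb : b ∈ U.node a (l + 1) := by
      rw [← Lvls.node_eq hU h2, Lvls.node_eq hU h3]
      exact Lvls.mem_node_self hU b hl
    simp only [Lvls.node, mem_filter, mem_univ, true_and] at hb
    omega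
  · intro h
    have hb : b ∈ U.node a (l + 1) := by
      simp only [Lvls.node, mem_filter, mem_univ, true_and]
      omega
    rw [Lvls.node_eq hU hb]
    obtain ⟨c, hc⟩ := Finset.min_of_nonempty ⟨a, Lvls.mem_node_self hU a hl⟩
    rw [hc]
    rfl

theorem isTree_comp {m : ℕ} {U : Lvls K q} (hU : U.IsTree) (ι : Fin m → Fin q) :
    Lvls.IsTree (fun a b => U (ι a) (ι b)) :=
  ⟨fun _ => hU.1 _, fun _ _ => hU.2.1 _ _, fun _ _ _ => hU.2.2 _ _ _⟩

/-- Two maps with the same fibres differ by a permutation. -/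
theorem exists_perm_of_ker {α : Type*} [Fintype α] [DecidableEq α] (f g : α → α)
    (h : ∀ a b, f a = f b ↔ g a = g b) : ∃ ρ : Equiv.Perm α, ∀ a, ρ (f a) = g a := by
  classical
  set F : {x // x ∈ Set.range f} → {x // x ∈ Set.range g} := fun x => ⟨g x.2.choose, _, rfl⟩
  have hF : Function.Bijective F := by
    constructor
    · intro x y hxy
      refine Subtype.ext ?_
      rw [← x.2.choose_spec, ← y.2.choose_spec]
      exact (h _ _).2 (congrArg Subtype.val hxy)
    · rintro ⟨_, a, rfl⟩
      refine ⟨⟨f a, a, rfl⟩, Subtype.ext ?_⟩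
      exact (h _ _).1 (Exists.choose_spec (p := fun b => f b = f a) ⟨a, rfl⟩)
  refine ⟨(Equiv.ofBijective F hF).extendSubtype, fun a => ?_⟩
  rw [Equiv.extendSubtype_apply_of_mem _ _ ⟨a, rfl⟩]
  exact (h _ _).1 (Exists.choose_spec (p := fun b => f b = f a) ⟨a, rfl⟩)

/-- The mean product of signs does not see the names of the classes. -/
theorem flagC_rep (P : PKind) {U : Lvls K q} (hU : U.IsTree) (R : Fin K → Fin q → Fin q)
    (hR : ∀ l a b, R l a = R l b ↔ (l : ℕ) < (U a b : ℕ)) :
    flagC P U = ∫ η : Fin K × Fin q → Lab, ∏ a, flagF P (fun l => η (l, R l a))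
      ∂(Measure.pi fun _ => labLaw) := by
  have hex : ∀ l, ∃ ρ : Equiv.Perm (Fin q), ∀ a, ρ (lrep U l a) = R l a := fun l =>
    exists_perm_of_ker _ _ fun a b => (lrep_iff hU l a b).trans (hR l a b).symm
  choose ρ hρ using hex
  have he : Function.Injective fun p : Fin K × Fin q => (p.1, ρ p.1 p.2) := by
    rintro ⟨l, a⟩ ⟨l', a'⟩ h
    simp only [Prod.mk.injEq] at h
    obtain ⟨rfl, h⟩ := h
    rw [(ρ l).injective h]
  have hm := P157.mp_comp (μ := labLaw) he
  set Φ : (Fin K × Fin q → Lab) → ℝ := fun η => ∏ a, flagF P fun l => η (l, lrep U l a)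
  have hΦ : Measurable Φ := Finset.measurable_prod _ fun a _ =>
    (measurable_flagF P).comp (measurable_pi_lambda _ fun l => measurable_pi_apply _)
  show ∫ η, Φ η ∂_ = _
  conv_lhs => rw [← hm.map_eq]
  rw [integral_map hm.measurable.aemeasurable hΦ.aestronglyMeasurable]
  simp only [Φ, hρ]

theorem flagC_perm (P : PKind) {U : Lvls K q} (hU : U.IsTree) (e : Equiv.Perm (Fin q)) :
    flagC P (fun a b => U (e a) (e b)) = flagC P U := by
  set V : Lvls K q := fun a b => U (e a) (e b)
  rw [flagC_rep P hU (fun l a => e (lrep V l (e.symm a))) fun l a b => by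
    rw [e.injective.eq_iff, lrep_iff (isTree_comp hU e)]
    simp only [e.apply_symm_apply]]
  have hm := P157.mp_comp (μ := labLaw) (e := fun p : Fin K × Fin q => (p.1, e p.2))
    fun p p' h => Prod.ext (congrArg Prod.fst h :) (e.injective (congrArg Prod.snd h))
  set Φ : (Fin K × Fin q → Lab) → ℝ := fun η => ∏ a, flagF P fun l => η (l, lrep V l a)
  have hΦ : Measurable Φ := Finset.measurable_prod _ fun a _ =>
    (measurable_flagF P).comp (measurable_pi_lambda _ fun l => measurable_pi_apply _)
  show ∫ η, Φ η ∂_ = _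
  conv_lhs => rw [← hm.map_eq]
  rw [integral_map hm.measurable.aemeasurable hΦ.aestronglyMeasurable]
  refine integral_congr_ae (ae_of_all _ fun η => ?_)
  exact Fintype.prod_equiv e _ _ fun a => by simp

/-- The tag and the sign of a label. -/
def zOf (D : ℕ) [NeZero D] (y : Lab) : Fin D × Bool :=
  (Fin.ofNat D ⌊(D : ℝ) * y 0⌋₊, decide (y 1 < 1 / 2))

theorem measurable_zOf (D : ℕ) [NeZero D] : Measurable (zOf D) := by
  refine Measurable.prodMk ?_ ?_
  · have h : Measurable fun y : Lab => (D : ℝ) * y 0 := by fun_prop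
    exact (measurable_from_nat (f := fun k => Fin.ofNat D k)).comp (Nat.measurable_floor.comp h)
  · exact measurable_to_bool (by
      simpa [Set.preimage] using measurableSet_lt (measurable_pi_apply 1) measurable_const)

theorem u01_Ico {a b : ℝ} (ha : 0 ≤ a) (hb : b ≤ 1) :
    u01 (Set.Ico a b) = ENNReal.ofReal (b - a) := by
  rw [u01, Measure.restrict_apply measurableSet_Ico,
    show Set.Ico a b ∩ Set.Icc 0 1 = Set.Ico a b from
      Set.inter_eq_left.2 fun y hy => ⟨ha.trans hy.1, hy.2.le.trans hb⟩, Real.volume_Ico]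

theorem ae_lab_lt : ∀ᵐ y ∂labLaw, ∀ i, 0 ≤ y i ∧ y i < 1 := by
  refine ae_all_iff.2 fun i => (measurePreserving_eval_infinitePi (fun _ : ℕ => u01)
    i).quasiMeasurePreserving.ae ?_ (p := fun t => 0 ≤ t ∧ t < 1)
  have h1 : ∀ᵐ t ∂u01, t ≠ 1 := ae_restrict_of_ae (Measure.ae_ne volume 1)
  filter_upwards [ae_restrict_mem measurableSet_Icc, h1] with t ht ht'
  exact ⟨ht.1, lt_of_le_of_ne ht.2 ht'⟩

/-- Tags and signs are uniform. -/
theorem map_zOf (D : ℕ) [NeZero D] : labLaw.map (zOf D) = unif (Fin D × Bool) := by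
  have hD : (0 : ℝ) < D := by exact_mod_cast NeZero.pos D
  refine Measure.ext_of_singleton fun ⟨i, e⟩ => ?_
  rw [Measure.map_apply (measurable_zOf D) (measurableSet_singleton _)]
  set A : Set ℝ := Set.Ico ((i : ℝ) / D) (((i : ℝ) + 1) / D)
  set B : Set ℝ := if e then Set.Ico 0 (1 / 2) else Set.Ico (1 / 2) 1
  set t : ℕ → Set ℝ := fun k => if k = 0 then A else B
  have hae : (zOf D ⁻¹' {(i, e)} : Set Lab) =ᵐ[labLaw] Set.pi (({0, 1} : Finset ℕ) : Set ℕ) t := by
    rw [Filter.eventuallyEq_set]
    filter_upwards [ae_lab_lt] with y hy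
    have hfl : ⌊(D : ℝ) * y 0⌋₊ < D := by
      rw [Nat.floor_lt (mul_nonneg hD.le (hy 0).1)]
      nlinarith [(hy 0).2]
    have hz : (y ∈ zOf D ⁻¹' {(i, e)}) ↔ y 0 ∈ A ∧ y 1 ∈ B := by
      simp only [zOf, Set.mem_preimage, Set.mem_singleton_iff, Prod.mk.injEq, Fin.ext_iff,
        Fin.val_ofNat, Nat.mod_eq_of_lt hfl]
      refine and_congr ?_ ?_
      · rw [Nat.floor_eq_iff (mul_nonneg hD.le (hy 0).1)]
        simp only [A, Set.mem_Ico, div_le_iff₀ hD, lt_div_iff₀ hD, mul_comm (y 0)]
      · cases e <;> simp [B, (hy 1).1, (hy 1).2]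
    have hpi : (y ∈ Set.pi (({0, 1} : Finset ℕ) : Set ℕ) t) ↔ y 0 ∈ A ∧ y 1 ∈ B := by
      simp [t]
    exact hz.trans hpi.symm
  rw [measure_congr hae]
  refine (Measure.infinitePi_pi _ fun k _ => ?_).trans ?_
  · simp only [t, A, B]
    split_ifs <;> exact measurableSet_Ico
  rw [Finset.prod_pair zero_ne_one]
  simp only [t, if_pos rfl, if_neg one_ne_zero, A, B]
  have hi : ((i : ℕ) : ℝ) + 1 ≤ D := by exact_mod_cast i.isLt
  have hA : ((i : ℝ) + 1) / D - (i : ℝ) / D = (D : ℝ)⁻¹ := by field_simp; ring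
  rw [u01_Ico (by positivity) ((div_le_one hD).2 hi), hA]
  have hB : u01 (if e then Set.Ico (0 : ℝ) (1 / 2) else Set.Ico (1 / 2) 1) = 2⁻¹ := by
    cases e <;> simp only [Bool.false_eq_true, if_false, if_true] <;>
      rw [u01_Ico (by norm_num) (by norm_num)] <;> norm_num [ENNReal.ofReal_div_of_pos]
  rw [hB, ENNReal.ofReal_inv_of_pos hD, ENNReal.ofReal_natCast, unif, Measure.smul_apply,
    Measure.count_singleton, ENNReal.smul_def, smul_eq_mul, mul_one, Fintype.card_prod,
    Fintype.card_fin, Fintype.card_bool, ENNReal.coe_inv (by exact_mod_cast (by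
      have := NeZero.pos D; omega))]
  push_cast
  rw [ENNReal.mul_inv (Or.inr (by norm_num)) (Or.inl (ENNReal.natCast_ne_top D))]

/-- The factor of a replica given tgtTags and the sign of its leaf. -/
def hS (S : Finset (List ℕ)) (p : List ℕ) (e : Bool) : ℝ := if p ∈ S then 1 else sgn e

/-- The tag path of a replica. -/
def tagPath (U : Lvls K q) (t : Fin K × Fin q → Fin D) (a : Fin q) : List ℕ :=
  List.ofFn fun l => (t (l, lrep U l a) : ℕ)

variable (hK : 0 < K)

/-- The deepest level. -/
def lastL : Fin K := ⟨K - 1, by omega⟩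

/-- The paths of the classes of odd size. -/
def oddTags (U : Lvls K q) (t : Fin K × Fin q → Fin D) : Finset (List ℕ) :=
  (univ.filter fun c => Odd (univ.filter fun b => lrep U (lastL hK) b = c).card).image
    (tagPath U t)

theorem flagC_eq [NeZero D] (S : Finset (List ℕ)) (U : Lvls K q) :
    flagC (D, S, 0, false) U = (Fintype.card (Fin K × Fin q → Fin D × Bool) : ℝ)⁻¹ *
      ∑ z : Fin K × Fin q → Fin D × Bool,
        ∏ a, hS S (tagPath U (fun p => (z p).1) a) (z (lastL hK, lrep U (lastL hK) a)).2 := by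
  set Ψ : (Fin K × Fin q → Fin D × Bool) → ℝ := fun z =>
    ∏ a, hS S (tagPath U (fun p => (z p).1) a) (z (lastL hK, lrep U (lastL hK) a)).2
  have hae : ∀ᵐ η : Fin K × Fin q → Lab ∂(Measure.pi fun _ => labLaw),
      ∀ p, (0 ≤ η p 0 ∧ η p 0 < 1) := by
    refine ae_all_iff.2 fun p => (measurePreserving_eval (fun _ => labLaw)
      p).quasiMeasurePreserving.ae ?_ (p := fun y => 0 ≤ y 0 ∧ y 0 < 1)
    filter_upwards [ae_lab_lt] with y hy using hy 0
  have e : ∀ᵐ η : Fin K × Fin q → Lab ∂(Measure.pi fun _ => labLaw),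
      ∏ a, flagF ((D, S, 0, false) : PKind) (fun l => η (l, lrep U l a)) =
        Ψ fun p => zOf D (η p) := by
    filter_upwards [hae] with η hη
    refine Finset.prod_congr rfl fun a _ => ?_
    have hfl : ∀ p, ⌊(D : ℝ) * η p 0⌋₊ % D = ⌊(D : ℝ) * η p 0⌋₊ := fun p => by
      refine Nat.mod_eq_of_lt ((Nat.floor_lt (mul_nonneg (Nat.cast_nonneg D) (hη p).1)).2 ?_)
      have : (0 : ℝ) < D := by exact_mod_cast NeZero.pos D
      nlinarith [(hη p).2]
    simp only [flagF, hS, tagPath, zOf, Fin.val_ofNat, hfl, hK, dite_true]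
    split_ifs <;> simp_all [sgn, lastL]
  rw [flagC, integral_congr_ae e]
  have hm : Measurable fun (η : Fin K × Fin q → Lab) p => zOf D (η p) :=
    measurable_pi_lambda _ fun p => (measurable_zOf D).comp (measurable_pi_apply p)
  rw [← integral_map (φ := fun (η : Fin K × Fin q → Lab) p => zOf D (η p)) hm.aemeasurable
    (measurable_of_finite Ψ).aestronglyMeasurable]
  have : SigmaFinite (labLaw.map (zOf D)) := by rw [map_zOf]; infer_instance
  rw [Measure.pi_map_pi (f := fun _ => zOf D) fun _ => (measurable_zOf D).aemeasurable, map_zOf,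
    integral_fintype .of_finite, Finset.mul_sum]
  refine Finset.sum_congr rfl fun z _ => ?_
  rw [smul_eq_mul, Measure.real, Measure.pi_singleton]
  simp only [unif, Measure.smul_apply, Measure.count_singleton, ENNReal.smul_def, smul_eq_mul,
    mul_one, Finset.prod_const, Finset.card_univ, ENNReal.toReal_pow, ENNReal.coe_toReal]
  push_cast
  simp [Ψ, inv_pow, mul_pow]

/-- The average over the signs at given tgtTags. -/
theorem sum_signs {U : Lvls K q} (hU : U.IsTree) (t : Fin K × Fin q → Fin D)
    (S : Finset (List ℕ)) :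
    ∑ ε : Fin K × Fin q → Bool,
        ∏ a, hS S (tagPath U t a) (ε (lastL hK, lrep U (lastL hK) a)) =
      (2 : ℝ) ^ Fintype.card (Fin K × Fin q) * if oddTags hK U t ⊆ S then 1 else 0 := by
  classical
  set r := lrep U (lastL hK)
  set g : Fin q → Fin K × Fin q := fun a => (lastL hK, r a)
  set φ : Fin K × Fin q → Bool → ℝ := fun i e =>
    ∏ a ∈ univ.filter (fun a => g a = i), hS S (tagPath U t a) e
  have e1 : ∀ ε : Fin K × Fin q → Bool,
      ∏ a, hS S (tagPath U t a) (ε (g a)) = ∏ i, φ i (ε i) := fun ε => by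
    rw [← Finset.prod_fiberwise (s := (univ : Finset (Fin q))) (g := g)]
    refine Finset.prod_congr rfl fun i _ => Finset.prod_congr rfl fun a ha => ?_
    rw [(Finset.mem_filter.1 ha).2]
  have hpath : ∀ a c, r a = r c → tagPath U t a = tagPath U t c := fun a c h => by
    simp only [tagPath]
    congr 1
    funext l
    have h1 := (lrep_iff hU (lastL hK) a c).1 h
    simp only [lastL] at h1
    rw [(lrep_iff hU l a c).2 (by have := l.isLt; omega)]
  have e2 : ∀ i, ∑ e : Bool, φ i e = 2 * if i.1 = lastL hK ∧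
      Odd (univ.filter fun b => r b = i.2).card ∧ tagPath U t i.2 ∉ S then 0 else 1 := by
    rintro ⟨l, c⟩
    set fib := univ.filter fun a => g a = (l, c)
    by_cases hl : l = lastL hK
    swap
    · have hf : fib = ∅ := Finset.filter_eq_empty_iff.2 fun a _ h =>
        hl (congrArg Prod.fst h).symm
      simp [φ, fib, hf, hl]
    subst hl
    have hfib : fib = univ.filter fun b => r b = c := Finset.filter_congr fun a _ => by
      simp [g]
    have hc : ∀ a ∈ fib, tagPath U t a = tagPath U t c := fun a ha => by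
      rw [hfib, Finset.mem_filter] at ha
      refine hpath a c ?_
      have : c ∈ U.node a (lastL hK + 1) := by
        rw [← ha.2]
        exact place_mem hU a (lastL hK).isLt
      exact ((lrep_iff hU _ a c).2 (by
        simp only [Lvls.node, mem_filter, mem_univ, true_and] at this
        omega))
    have hφ : ∀ e, φ (lastL hK, c) e = hS S (tagPath U t c) e ^ fib.card := fun e => by
      simp only [φ]
      rw [Finset.prod_congr rfl fun a ha => by rw [hc a ha], Finset.prod_const]
    simp only [hφ, Fintype.sum_bool, hS, true_and, ← hfib]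
    by_cases hp : tagPath U t c ∈ S
    · simp [hp]; norm_num
    rcases Nat.even_or_odd fib.card with h | h
    · simp [hp, sgn, h.neg_one_pow, Nat.not_odd_iff_even.2 h]; norm_num
    · simp [hp, sgn, h.neg_one_pow, h]
  simp only [show ∀ a, ((lastL hK, r a) : Fin K × Fin q) = g a from fun a => rfl, e1]
  rw [← Fintype.prod_sum, Finset.prod_congr rfl fun i _ => e2 i, Finset.prod_mul_distrib,
    Finset.prod_const, Finset.card_univ]
  congr 1
  by_cases h : oddTags hK U t ⊆ S
  · rw [if_pos h]
    refine Finset.prod_eq_one fun i _ => if_neg fun hi => hi.2.2 (h ?_)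
    exact Finset.mem_image.2 ⟨i.2, Finset.mem_filter.2 ⟨mem_univ _, hi.2.1⟩, rfl⟩
  · rw [if_neg h]
    obtain ⟨p, hp, hpS⟩ := Finset.not_subset.1 h
    obtain ⟨c, hc, rfl⟩ := Finset.mem_image.1 hp
    exact Finset.prod_eq_zero (mem_univ (lastL hK, c))
      (if_pos ⟨rfl, (Finset.mem_filter.1 hc).2, hpS⟩)

theorem moebius {α : Type*} [DecidableEq α] (S0 T : Finset α) :
    ∑ S ∈ S0.powerset, (-1 : ℝ) ^ (S0.card - S.card) * (if T ⊆ S then 1 else 0) =
      if T = S0 then 1 else 0 := by
  by_cases hT : T ⊆ S0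
  swap
  · rw [if_neg fun h => hT h.le, Finset.sum_eq_zero fun S hS => ?_]
    rw [if_neg fun h => hT (h.trans (Finset.mem_powerset.1 hS)), mul_zero]
  have h := Finset.prod_add (fun _ : α => (1 : ℝ)) (fun a => if a ∈ T then 0 else -1) S0
  have hl : ∏ a ∈ S0, ((1 : ℝ) + if a ∈ T then 0 else -1) = if T = S0 then 1 else 0 := by
    by_cases hs : T = S0
    · subst hs
      rw [if_pos rfl]
      exact Finset.prod_eq_one fun a ha => by simp [ha]
    · rw [if_neg hs]
      obtain ⟨a, ha, haT⟩ := Finset.exists_of_ssubset (hT.ssubset_of_ne hs)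
      exact Finset.prod_eq_zero ha (by simp [haT])
  rw [← hl, h]
  refine Finset.sum_congr rfl fun S hS => ?_
  rw [Finset.prod_const_one, one_mul, ← Finset.card_sdiff_of_subset (Finset.mem_powerset.1 hS)]
  by_cases hTS : T ⊆ S
  · rw [if_pos hTS, mul_one, ← Finset.prod_const]
    refine Finset.prod_congr rfl fun a ha => ?_
    rw [if_neg fun haT => (Finset.mem_sdiff.1 ha).2 (hTS haT)]
  · rw [if_neg hTS, mul_zero]
    obtain ⟨a, ha, haS⟩ := Finset.not_subset.1 hTS
    exact (Finset.prod_eq_zero (f := fun a => if a ∈ T then (0 : ℝ) else -1)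
      (Finset.mem_sdiff.2 ⟨hT ha, haS⟩) (if_pos ha)).symm

/-- The inclusion–exclusion over marked sets. -/
def mob (D : ℕ) (S0 : Finset (List ℕ)) (U : Lvls K q) : ℝ :=
  ∑ S ∈ S0.powerset, (-1 : ℝ) ^ (S0.card - S.card) * flagC (D, S, 0, false) U

theorem mob_eq [NeZero D] (S0 : Finset (List ℕ)) {U : Lvls K q} (hU : U.IsTree) :
    mob D S0 U = (Fintype.card (Fin K × Fin q → Fin D) : ℝ)⁻¹ *
      ∑ t : Fin K × Fin q → Fin D, if oddTags hK U t = S0 then 1 else 0 := by
  have e : ∀ S, flagC (D, S, 0, false) U = (Fintype.card (Fin K × Fin q → Fin D) : ℝ)⁻¹ *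
      ∑ t : Fin K × Fin q → Fin D, if oddTags hK U t ⊆ S then 1 else 0 := fun S => by
    rw [flagC_eq hK, ← (Equiv.arrowProdEquivProdArrow (Fin K × Fin q) (fun _ => Fin D)
      fun _ => Bool).symm.sum_comp, Fintype.sum_prod_type, Finset.mul_sum, Finset.mul_sum]
    refine Finset.sum_congr rfl fun t _ => ?_
    simp only [Equiv.arrowProdEquivProdArrow, Equiv.coe_fn_symm_mk, sum_signs hK hU,
      Fintype.card_fun, Fintype.card_prod, Fintype.card_bool, Fintype.card_fin]
    push_cast
    rw [mul_pow]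
    field_simp
  simp only [mob, e, Finset.mul_sum]
  rw [Finset.sum_comm]
  refine Finset.sum_congr rfl fun t _ => ?_
  rw [← moebius, Finset.mul_sum]
  exact Finset.sum_congr rfl fun S _ => mul_left_comm _ _ _

include hK in
theorem mob_nonneg [NeZero D] (S0 : Finset (List ℕ)) {U : Lvls K q} (hU : U.IsTree) :
    0 ≤ mob D S0 U := by
  rw [mob_eq hK S0 hU]
  exact mul_nonneg (by positivity) (Finset.sum_nonneg fun t _ => by split_ifs <;> norm_num)

/-- No two replicas share a leaf. -/
def Distinct (U : Lvls K q) : Prop := ∀ a b, a ≠ b → U a b ≠ Fin.last K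

/-- The tag paths of a target. -/
def tgtTags (V : Lvls K q) : Finset (List ℕ) := univ.image (tagPath V Prod.snd)

include hK in
theorem lrep_last {V : Lvls K q} (hV : V.IsTree) (hd : Distinct V) (a : Fin q) :
    lrep V (lastL hK) a = a := by
  by_contra h
  have hm := place_mem hV a (lastL hK).isLt
  rw [← lrep_eq] at hm
  simp only [Lvls.node, mem_filter, mem_univ, true_and] at hm
  exact hd a _ (Ne.symm h) (Fin.ext (by
    have := Fin.is_le (V a (lrep V (lastL hK) a))
    have hl : (lastL hK : ℕ) = K - 1 := rfl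
    simp only [Fin.val_last] at this ⊢
    omega))

include hK in
theorem tgtTags_inj {V : Lvls K q} (hV : V.IsTree) (hd : Distinct V) :
    Function.Injective (tagPath V (Prod.snd : Fin K × Fin q → Fin q)) := fun a b h => by
  have h' := congrFun (List.ofFn_inj.1 h) (lastL hK)
  simp only [lrep_last hK hV hd] at h'
  exact Fin.ext h'

include hK in
/-- Nonvanishing forces the levels below those of the target. -/
theorem mob_ne [NeZero q] {U V : Lvls K q} (hU : U.IsTree) (hV : V.IsTree) (hd : Distinct V)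
    (h : mob q (tgtTags V) U ≠ 0) :
    Distinct U ∧ ∃ π : Equiv.Perm (Fin q), ∀ a b, U a b ≤ V (π a) (π b) := by
  rw [mob_eq hK _ hU] at h
  obtain ⟨t, -, ht⟩ := Finset.exists_ne_zero_of_sum_ne_zero (right_ne_zero_of_mul h)
  rw [ne_eq, ite_eq_right_iff, Classical.not_imp] at ht
  set F := univ.filter fun c => Odd (univ.filter fun b => lrep U (lastL hK) b = c).card
  have hT : F.image (tagPath U t) = tgtTags V := ht.1
  have hcard : (tgtTags V).card = q := by
    rw [tgtTags, Finset.card_image_of_injective _ (tgtTags_inj hK hV hd), card_univ, Fintype.card_fin]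
  have hF : F = univ := Finset.eq_univ_of_card _ (le_antisymm (Finset.card_le_univ _) (by
    rw [Fintype.card_fin]
    calc q = (F.image (tagPath U t)).card := by rw [hT, hcard]
      _ ≤ F.card := Finset.card_image_le))
  have hp : Function.Injective (tagPath U t) := by
    have := Finset.card_image_iff.1 (by rw [hT, hcard, hF, card_univ, Fintype.card_fin] :
      (F.image (tagPath U t)).card = F.card)
    rw [hF, Finset.coe_univ] at this
    exact fun a b hab => this (Set.mem_univ a) (Set.mem_univ b) hab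
  have hex : ∀ a, ∃ c, tagPath V Prod.snd c = tagPath U t a := fun a => by
    have hm : tagPath U t a ∈ tgtTags V := by
      rw [← hT, hF]
      exact Finset.mem_image_of_mem _ (mem_univ a)
    obtain ⟨c, -, hc⟩ := Finset.mem_image.1 hm
    exact ⟨c, hc⟩
  choose π hπ using hex
  have hπi : Function.Injective π := fun a b hab => hp (by rw [← hπ, ← hπ, hab])
  refine ⟨fun a b hab hU' => hab (hp ?_),
    Equiv.ofBijective π (Finite.injective_iff_bijective.1 hπi), fun a b => ?_⟩
  · simp only [tagPath]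
    congr 1
    funext l
    rw [(lrep_iff hU l a b).2 (by rw [hU']; exact l.isLt)]
  · rcases Nat.eq_zero_or_pos (U a b : ℕ) with h0 | h0
    · exact Fin.le_def.2 (by omega)
    set l : Fin K := ⟨(U a b : ℕ) - 1, by have := Fin.is_le (U a b); omega⟩
    have e : ∀ c, (lrep V l (π c) : ℕ) = t (l, lrep U l c) := fun c =>
      congrFun (List.ofFn_inj.1 (hπ c)) l
    have := (lrep_iff hV l (π a) (π b)).1 (Fin.ext (by
      rw [e a, e b, (lrep_iff hU l a b).2 (show (l : ℕ) < _ by simp only [l]; omega)]))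
    simp only [l] at this
    simp only [Equiv.ofBijective_apply, Fin.le_def]
    omega

include hK in
theorem mob_self [NeZero q] {V : Lvls K q} (hV : V.IsTree) (hd : Distinct V) :
    0 < mob q (tgtTags V) V := by
  rw [mob_eq hK _ hV]
  refine mul_pos (inv_pos.2 (Nat.cast_pos.2 Fintype.card_pos)) (Finset.sum_pos'
    (fun t _ => by split_ifs <;> norm_num) ⟨Prod.snd, mem_univ _, ?_⟩)
  rw [if_pos]
  · norm_num
  · rw [oddTags, tgtTags, Finset.filter_true_of_mem fun c _ => ?_]
    simp [lrep_last hK hV hd, Finset.filter_eq']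

/-- The sum of the levels. -/
def lvlSum (U : Lvls K q) : ℕ := ∑ a, ∑ b, (U a b : ℕ)

theorem lvlSum_perm (U : Lvls K q) (e : Equiv.Perm (Fin q)) :
    lvlSum (fun a b => U (e a) (e b)) = lvlSum U :=
  (Finset.sum_congr rfl fun a _ => Equiv.sum_comp e fun b => (U (e a) b : ℕ)).trans
    (Equiv.sum_comp e fun a => ∑ b, (U a b : ℕ))

/-- All tag paths. -/
def allPaths (K q : ℕ) : Finset (List ℕ) :=
  (univ : Finset (Fin K → Fin q)).image fun f => List.ofFn fun l => (f l : ℕ)

theorem tgtTags_subset (V : Lvls K q) : tgtTags V ⊆ allPaths K q := fun p hp => by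
  obtain ⟨a, -, rfl⟩ := Finset.mem_image.1 hp
  exact Finset.mem_image.2 ⟨fun l => lrep V l a, mem_univ _, rfl⟩

/-- A combination of the mean products of signs. -/
def InFlag (C : Lvls K q → ℝ) : Prop :=
  ∃ cf : Finset (List ℕ) → ℝ, ∀ U, U.IsTree →
    C U = ∑ S ∈ (allPaths K q).powerset, cf S * flagC (q, S, 0, false) U

include hK in
theorem exists_flag_aux [NeZero q] : ∀ (s : ℕ) (R : Lvls K q → ℝ),
    (∀ (e : Equiv.Perm (Fin q)) U, U.IsTree → R (fun a b => U (e a) (e b)) = R U) →
    (∀ U, U.IsTree → ¬Distinct U → R U = 0) → (∀ U, U.IsTree → s ≤ lvlSum U → R U = 0) →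
    InFlag R := by
  classical
  intro s
  induction s with
  | zero =>
    intro R _ _ h0
    exact ⟨fun _ => 0, fun U hU => by simp [h0 U hU (Nat.zero_le _)]⟩
  | succ s ih =>
    intro R hsym hdis hhi
    set 𝒱 : Finset (Lvls K q) := univ.filter fun V => V.IsTree ∧ Distinct V ∧ lvlSum V = s
    have h𝒱 : ∀ {V}, V ∈ 𝒱 → V.IsTree ∧ Distinct V ∧ lvlSum V = s := fun hV =>
      (Finset.mem_filter.1 hV).2
    set Z : Lvls K q → ℝ := fun U => ∑ V ∈ 𝒱, mob q (tgtTags V) U
    set F : Lvls K q → ℝ := fun U => ∑ V ∈ 𝒱, R V / Z V * mob q (tgtTags V) U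
    have hper : ∀ (V : Lvls K q) (e : Equiv.Perm (Fin q)) (U : Lvls K q), U.IsTree →
        mob q (tgtTags V) (fun a b => U (e a) (e b)) = mob q (tgtTags V) U := fun V e U hU => by
      refine Finset.sum_congr rfl fun S _ => ?_
      rw [flagC_perm _ hU e]
    have hkey : ∀ U, U.IsTree → s ≤ lvlSum U → F U = R U := by
      intro U hU hs
      have hz : ∀ V ∈ 𝒱, mob q (tgtTags V) U ≠ 0 →
          U ∈ 𝒱 ∧ R V = R U ∧ Z V = Z U := by
        intro V hV hne
        obtain ⟨hVt, hVd, hVs⟩ := h𝒱 hV
        obtain ⟨hUd, π, hπ⟩ := mob_ne hK hU hVt hVd hne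
        have hle : ∀ a, ∑ b, (U a b : ℕ) ≤ ∑ b, (V (π a) (π b) : ℕ) := fun a =>
          Finset.sum_le_sum fun b _ => Fin.le_def.1 (hπ a b)
        have hsum : lvlSum U = lvlSum fun a b => V (π a) (π b) := by
          refine le_antisymm (Finset.sum_le_sum fun a _ => hle a) ?_
          rw [lvlSum_perm, hVs]
          exact hs
        have hUV : U = fun a b => V (π a) (π b) := by
          funext a b
          have h1 := (Finset.sum_eq_sum_iff_of_le fun a _ => hle a).1 hsum a (mem_univ a)
          exact Fin.ext ((Finset.sum_eq_sum_iff_of_le fun b _ =>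
            Fin.le_def.1 (hπ a b)).1 h1 b (mem_univ b))
        refine ⟨Finset.mem_filter.2 ⟨mem_univ _, hU, hUd, by rw [hUV, lvlSum_perm, hVs]⟩,
          by rw [hUV, hsym π V hVt], Finset.sum_congr rfl fun V' _ => ?_⟩
        rw [hUV, hper V' π V hVt]
      by_cases hU𝒱 : U ∈ 𝒱
      · obtain ⟨-, hUd, -⟩ := h𝒱 hU𝒱
        have hZ : 0 < Z U := Finset.sum_pos' (fun V hV => mob_nonneg hK _ hU)
          ⟨U, hU𝒱, mob_self hK hU hUd⟩
        calc F U = ∑ V ∈ 𝒱, R U / Z U * mob q (tgtTags V) U :=
              Finset.sum_congr rfl fun V hV => by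
                by_cases hne : mob q (tgtTags V) U = 0
                · simp [hne]
                · obtain ⟨-, h1, h2⟩ := hz V hV hne
                  rw [h1, h2]
          _ = R U := by rw [← Finset.mul_sum, div_mul_cancel₀ _ hZ.ne']
      · have hF : F U = 0 := Finset.sum_eq_zero fun V hV => by
          by_cases hne : mob q (tgtTags V) U = 0
          · simp [hne]
          · exact absurd (hz V hV hne).1 hU𝒱
        rw [hF]
        by_cases hUd : Distinct U
        · refine (hhi U hU ?_).symm
          by_contra hc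
          exact hU𝒱 (Finset.mem_filter.2 ⟨mem_univ _, hU, hUd, by omega⟩)
        · exact (hdis U hU hUd).symm
    obtain ⟨cf, hcf⟩ := ih (fun U => R U - F U)
      (fun e U hU => by
        simp only [F, hsym e U hU]
        exact congrArg _ (Finset.sum_congr rfl fun V _ => by rw [hper V e U hU]))
      (fun U hU hUd => by
        simp only [hdis U hU hUd, F, zero_sub, neg_eq_zero]
        exact Finset.sum_eq_zero fun V hV => by
          by_cases hne : mob q (tgtTags V) U = 0
          · simp [hne]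
          · exact absurd (mob_ne hK hU (h𝒱 hV).1 (h𝒱 hV).2.1 hne).1 hUd)
      (fun U hU hs => sub_eq_zero.2 (hkey U hU hs).symm)
    refine ⟨fun S => cf S + ∑ V ∈ 𝒱, R V / Z V *
      (if S ⊆ tgtTags V then (-1 : ℝ) ^ ((tgtTags V).card - S.card) else 0), fun U hU => ?_⟩
    have hm : ∀ V, mob q (tgtTags V) U = ∑ S ∈ (allPaths K q).powerset,
        (if S ⊆ tgtTags V then (-1 : ℝ) ^ ((tgtTags V).card - S.card) else 0) *
          flagC (q, S, 0, false) U := fun V => by
      simp only [ite_mul, zero_mul]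
      rw [← Finset.sum_filter, mob]
      refine Finset.sum_congr ?_ fun S _ => rfl
      ext S
      simp only [mem_powerset, mem_filter]
      exact ⟨fun h => ⟨h.trans (tgtTags_subset V), h⟩, fun h => h.2⟩
    simp only [add_mul, Finset.sum_add_distrib, ← hcf U hU]
    rw [show (∑ S ∈ (allPaths K q).powerset, (∑ V ∈ 𝒱, R V / Z V *
      (if S ⊆ tgtTags V then (-1 : ℝ) ^ ((tgtTags V).card - S.card) else 0)) *
        flagC (q, S, 0, false) U) = F U by
      simp only [F, hm, Finset.mul_sum, Finset.sum_mul]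
      rw [Finset.sum_comm]
      exact Finset.sum_congr rfl fun V _ => Finset.sum_congr rfl fun S _ => mul_assoc _ _ _]
    ring

include hK in
/-- Every shape function is a combination of mean products of signs. -/
theorem exists_flag [NeZero q] {C : Lvls K q → ℝ} (hC : Arr.ShapeFun C) : InFlag C := by
  refine exists_flag_aux hK (q * (q * K) + 1) C (fun e U _ => hC.1 e U) (fun U _ hd => ?_)
    fun U _ hs => ?_
  · simp only [Distinct, not_forall, not_not] at hd
    obtain ⟨a, b, hab, h⟩ := hd
    exact hC.2 U a b hab h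
  · refine absurd hs (not_le.2 (Nat.lt_succ_of_le ?_))
    refine (Finset.sum_le_card_nsmul _ _ (q * K) fun a _ =>
      (Finset.sum_le_card_nsmul _ _ K fun b _ => Fin.is_le (U a b)).trans_eq (by simp)).trans_eq ?_
    simp

end Vale.Agent.P168
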