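import Vale.Agent.P168.Limit.Sub
import Vale.Agent.P168.Limit.Span

/-!
P168: identities of the limit laws for all shape functions, and attachment of a new replica by
the law of the trees.
-/

open MeasureTheory Finset

noncomputable section

namespace Vale.Agent.P168

variable {K q n r M : ℕ} {w : Wts K}

theorem ev_congr (hw : IsLim w) {g g' : Tst K r M} (h : ∀ U, U.IsTree → ∀ σ, g U σ = g' U σ) :
    ev w g = ev w g' := by
  refine Finset.sum_congr rfl fun U _ => Finset.sum_congr rfl fun σ _ => ?_
  by_cases hU : U.IsTree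
  · rw [h U hU σ]
  · rw [hw.tree r M U σ hU, zero_mul, zero_mul]

theorem ev_smul (c : ℝ) (g : Tst K r M) : ev w (fun U σ => c * g U σ) = c * ev w g := by
  simp only [ev, Finset.mul_sum, mul_left_comm]

theorem ev_sub (g g' : Tst K r M) :
    ev w (fun U σ => g U σ - g' U σ) = ev w g - ev w g' := by
  simp only [ev, mul_sub, Finset.sum_sub_distrib]

theorem ev_sum {I : Type*} (t : Finset I) (g : I → Tst K r M) :
    ev w (fun U σ => ∑ i ∈ t, g i U σ) = ∑ i ∈ t, ev w (g i) := by
  simp only [ev, Finset.mul_sum]
  exact (Finset.sum_congr rfl fun U _ => Finset.sum_comm).trans Finset.sum_comm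

/-- The test with the marked replicas and a function of their levels. -/
def pickT (sp : Bool) (C : Lvls K q → ℝ) (g : Tst K n M) (O : Finset (Fin n)) (h : O.card ≤ q) :
    Tst K (n + (q - O.card)) (M + 1) :=
  fun U σ => g (fun a b => U (Fin.castAdd _ a) (Fin.castAdd _ b))
      (fun a i => σ (Fin.castAdd _ a) i.succ) *
    C (fun i k => U (Arr.pick O h i) (Arr.pick O h k)) *
    if sp then ∏ i, sgn (σ (Arr.pick O h i) 0) else 1

/-- The signed sum of the identity. -/
def identE (w : Wts K) (sp : Bool) (C : Lvls K q → ℝ) (g : Tst K (r + 1) M) : ℝ :=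
  ∑ O : Finset (Fin (r + 1)), if h : 0 ∈ O ∧ O.card ≤ q then
    (-1 : ℝ) ^ (q - O.card) * ((r + 1 + (q - O.card) - 1).choose (q - O.card) : ℝ) *
      ev w (pickT sp C g O h.2) else 0

theorem flagC_cast (P : PKind) {q' : ℕ} (e : q' = q) (V : Lvls K q) :
    flagC P (fun a b => V (Fin.cast e a) (Fin.cast e b)) = flagC P V := by
  subst e
  rfl

theorem markT_eq_pickT (P : PKind) (g : Tst K n M) (O : Finset (Fin n)) (h : O.card ≤ q) :
    markT P g O (q - O.card) = pickT P.2.2.2 (flagC P) g O h := by
  have e : O.card + (q - O.card) = q := Nat.add_sub_cancel' h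
  have hm : ∀ i, mIdx O (q - O.card) i = Arr.pick O h (Fin.cast e i) := fun i => by
    refine Fin.addCases (fun j => ?_) (fun j => ?_) i
    · simp [mIdx, Arr.pick]
    · simp [mIdx, Arr.pick]
  funext U σ
  simp only [markT, pickT, hm]
  rw [flagC_cast P e fun i k => U (Arr.pick O h i) (Arr.pick O h k),
    Fin.prod_congr' (fun i => spinF P (σ (Arr.pick O h i) 0)) e, mul_assoc]
  cases hP : P.2.2.2 <;> simp [spinF, hP]

theorem card_markSet (S : Finset (Fin r)) : (markSet S).card = S.card + 1 := by
  rw [markSet, Finset.card_insert_of_notMem (by simp [Fin.succ_ne_zero]), Finset.card_map]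

theorem markSet_injective : Function.Injective (markSet (r := r)) := fun S T h => by
  ext a
  have := Finset.ext_iff.1 h a.succ
  simpa [markSet, Fin.succ_ne_zero] using this

theorem mem_markSet {O : Finset (Fin (r + 1))} (h : 0 ∈ O) :
    markSet (univ.filter fun a : Fin r => a.succ ∈ O) = O := by
  ext a
  cases a using Fin.cases with
  | zero => simp [markSet, h]
  | succ a => simp [markSet, Fin.succ_ne_zero]

theorem identE_markSet (sp : Bool) (C : Lvls K q → ℝ) (g : Tst K (r + 1) M) :
    identE w sp C g = ∑ S : Finset (Fin r), if h : (markSet S).card ≤ q then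
      (-1 : ℝ) ^ (q - (markSet S).card) *
        ((r + 1 + (q - (markSet S).card) - 1).choose (q - (markSet S).card) : ℝ) *
          ev w (pickT sp C g (markSet S) h) else 0 := by
  rw [identE, ← Finset.sum_subset (Finset.subset_univ (univ.image (markSet (r := r))))
    fun O _ hO => ?_, Finset.sum_image markSet_injective.injOn]
  · refine Finset.sum_congr rfl fun S _ => ?_
    have h0 : (0 : Fin (r + 1)) ∈ markSet S := Finset.mem_insert_self _ _
    by_cases h : (markSet S).card ≤ q
    · rw [dif_pos h, dif_pos ⟨h0, h⟩]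
    · rw [dif_neg h, dif_neg fun hh => h hh.2]
  · rw [dif_neg]
    exact fun hh => hO (Finset.mem_image.2 ⟨_, mem_univ _, mem_markSet hh.1⟩)

theorem coefC_eq_identE (P : PKind) {d : ℕ} (g : Tst K (r + 1) M) :
    coefC w P g d = identE w P.2.2.2 (q := d + 1) (flagC P) g := by
  rw [identE_markSet, coefC, Finset.sum_comm]
  refine Finset.sum_congr rfl fun S _ => ?_
  by_cases h : (markSet S).card ≤ d + 1
  · have hc := card_markSet S
    rw [dif_pos h, Finset.sum_eq_single (d + 1 - (markSet S).card)
      (fun i _ hi => if_neg (by omega)) (fun hi => absurd (Finset.mem_range.2 (by omega)) hi),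
      if_pos (by omega), markT_eq_pickT P g (markSet S) h]
    congr 2
    rw [show r + 1 + (d + 1 - (markSet S).card) - 1 = (d + 1 - (markSet S).card) + r by omega,
      ← Nat.choose_symm_add]
  · rw [dif_neg h, Finset.sum_eq_zero fun i _ => if_neg ?_]
    rw [card_markSet] at h
    omega

theorem ev_pickT_sum {I : Type*} (hw : IsLim w) (sp : Bool) {C : Lvls K q → ℝ} (t : Finset I)
    (cf : I → ℝ) (F : I → Lvls K q → ℝ) (hC : ∀ U, U.IsTree → C U = ∑ i ∈ t, cf i * F i U)
    (g : Tst K n M) (O : Finset (Fin n)) (h : O.card ≤ q) :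
    ev w (pickT sp C g O h) = ∑ i ∈ t, cf i * ev w (pickT sp (F i) g O h) := by
  simp only [← ev_smul, ← ev_sum]
  refine ev_congr hw fun U hU σ => ?_
  simp only [pickT, hC _ (isTree_comp hU _), Finset.mul_sum, Finset.sum_mul]
  exact Finset.sum_congr rfl fun i _ => by ring

/-- The identity of every shape function. -/
theorem ident_shape (hK : 0 < K) (hw : IsLim w) (hq : 1 ≤ q) {C : Lvls K q → ℝ}
    (hC : Arr.ShapeFun C) (sp : Bool) :
    ∃ cst : ℝ, ∀ (r M : ℕ) (g : Tst K (r + 1) M), identE w sp C g = cst * ev w g := by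
  obtain ⟨d, rfl⟩ := Nat.exists_eq_add_of_le' hq
  obtain ⟨cf, hcf⟩ := exists_flag hK hC
  set 𝒮 := (allPaths K (d + 1)).powerset
  refine ⟨∑ S ∈ 𝒮, cf S * coefC w ((d + 1, S, 0, sp) : PKind) (gOne K) d, fun r M g => ?_⟩
  have hid : ∀ S, identE w sp (q := d + 1) (flagC ((d + 1, S, 0, false) : PKind)) g =
      ev w g * coefC w ((d + 1, S, 0, sp) : PKind) (gOne K) d := fun S => by
    rw [← hw.ident, coefC_eq_identE]
    rfl
  calc identE w sp C g
      = ∑ S ∈ 𝒮, cf S * identE w sp (q := d + 1) (flagC ((d + 1, S, 0, false) : PKind)) g := by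
        simp only [identE, Finset.mul_sum]
        rw [Finset.sum_comm]
        refine Finset.sum_congr rfl fun O _ => ?_
        split_ifs with h
        · rw [ev_pickT_sum hw sp 𝒮 cf _ hcf g O h.2, Finset.mul_sum]
          exact Finset.sum_congr rfl fun S _ => mul_left_comm _ _ _
        · simp
    _ = _ := by
        rw [Finset.sum_mul]
        exact Finset.sum_congr rfl fun S _ => by rw [hid]; ring

/-- The shape function of one level of two replicas. -/
def levC (l : Fin (K + 1)) : Lvls K 2 → ℝ := fun U => if U 0 1 = l ∧ U 1 0 = l then 1 else 0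

theorem shape_levC {l : Fin (K + 1)} (hl : l ≠ Fin.last K) : Arr.ShapeFun (levC l) := by
  refine ⟨fun e U => ?_, fun U a b hab h => if_neg ?_⟩
  · have h : e 0 = 0 ∧ e 1 = 1 ∨ e 0 = 1 ∧ e 1 = 0 := by revert e; decide
    rcases h with ⟨h0, h1⟩ | ⟨h0, h1⟩ <;> simp only [levC, h0, h1, and_comm]
  · fin_cases a <;> fin_cases b <;> simp_all [Ne.symm hl]

theorem pick_single (h : (markSet (∅ : Finset (Fin r))).card ≤ 2) :
    Arr.pick (markSet (∅ : Finset (Fin r))) h 0 = Fin.castAdd _ 0 ∧
      (Arr.pick (markSet (∅ : Finset (Fin r))) h 1 : ℕ) = r + 1 := by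
  have hc : (markSet (∅ : Finset (Fin r))).card = 1 := by simp [card_markSet]
  refine ⟨?_, ?_⟩
  · rw [Arr.pick, dif_pos (by rw [hc]; exact Nat.one_pos)]
    congr 1
    have := Finset.orderEmbOfFin_mem (markSet (∅ : Finset (Fin r))) rfl
      ⟨((0 : Fin 2) : ℕ), by rw [hc]; exact Nat.one_pos⟩
    simpa [markSet] using this
  · rw [Arr.pick, dif_neg (by rw [hc]; exact lt_irrefl 1)]
    simp [hc]

theorem pick_pair (a : Fin r) (h : (markSet {a}).card ≤ 2) :
    Arr.pick (markSet {a}) h 0 = Fin.castAdd _ 0 ∧
      Arr.pick (markSet {a}) h 1 = Fin.castAdd _ a.succ := by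
  have hc : (markSet {a}).card = 2 := by simp [card_markSet]
  set e := (markSet {a}).orderEmbOfFin rfl
  have hlt : e ⟨0, by omega⟩ < e ⟨1, by omega⟩ := e.strictMono (Fin.mk_lt_mk.2 Nat.one_pos)
  have hm : ∀ i, e i = 0 ∨ e i = a.succ := fun i => by
    rcases Finset.mem_insert.1 (Finset.orderEmbOfFin_mem (markSet {a}) rfl i : e i ∈ markSet {a})
      with h | h
    · exact Or.inl h
    · rw [Finset.map_singleton, mem_singleton] at h
      exact Or.inr h
  have h0 : e ⟨0, by omega⟩ = 0 ∧ e ⟨1, by omega⟩ = a.succ := by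
    have := Fin.succ_ne_zero a
    rcases hm ⟨0, by omega⟩ with x | x <;> rcases hm ⟨1, by omega⟩ with y | y <;>
      rw [x, y] at hlt
    · exact absurd hlt (lt_irrefl _)
    · exact ⟨x, y⟩
    · exact absurd hlt (Fin.not_lt_zero _)
    · exact absurd hlt (lt_irrefl _)
  constructor
  · rw [Arr.pick, dif_pos (show ((0 : Fin 2) : ℕ) < _ by rw [hc]; norm_num)]
    exact congrArg _ h0.1
  · rw [Arr.pick, dif_pos (show ((1 : Fin 2) : ℕ) < _ by rw [hc]; norm_num)]
    exact congrArg _ h0.2

theorem pickT_false (hw : IsLim w) (C : Lvls K q → ℝ) (g : Tst K n M) (O : Finset (Fin n))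
    (h : O.card ≤ q) :
    ev w (pickT false C g O h) = ev w (fun U σ =>
      g (fun a b => U (Fin.castAdd (q - O.card) a) (Fin.castAdd (q - O.card) b))
        (fun a i => σ (Fin.castAdd (q - O.card) a) i) *
      C (fun i k => U (Arr.pick O h i) (Arr.pick O h k))) := by
  refine (ev_congr hw fun U _ σ => ?_).trans
    (hw.pull id Fin.succ Function.injective_id (Fin.succ_injective _) (fun U σ =>
      g (fun a b => U (Fin.castAdd (q - O.card) a) (Fin.castAdd (q - O.card) b))
        (fun a i => σ (Fin.castAdd (q - O.card) a) i) *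
      C (fun i k => U (Arr.pick O h i) (Arr.pick O h k))))
  simp [pickT]

/-- The identity of two replicas at the kind without spins. -/
theorem identE_lev (hw : IsLim w) (l : Fin (K + 1)) (g : Tst K (r + 1) M) :
    identE w false (levC l) g =
      -(((r : ℝ) + 1) * ev w (fun (U : Lvls K (r + 1 + 1)) σ =>
          g (fun a b => U a.castSucc b.castSucc) (fun a => σ a.castSucc) *
            if U (Fin.castSucc 0) (Fin.last (r + 1)) = l then 1 else 0)) +
        ∑ a : Fin r, ev w (fun U σ => g U σ * if U 0 a.succ = l then 1 else 0) := by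
  rw [identE_markSet]
  set T : Finset (Finset (Fin r)) := insert ∅ (univ.image fun a => {a})
  have hT : ∀ S : Finset (Fin r), S ∉ T → ¬(markSet S).card ≤ 2 := fun S hS h => hS (by
    rw [card_markSet] at h
    rcases Nat.lt_or_ge S.card 1 with h1 | h1
    · exact Finset.mem_insert.2 (Or.inl (Finset.card_eq_zero.1 (by omega)))
    · obtain ⟨a, rfl⟩ := Finset.card_eq_one.1 (show S.card = 1 by omega)
      exact Finset.mem_insert_of_mem (Finset.mem_image_of_mem _ (mem_univ a)))
  rw [← Finset.sum_subset (Finset.subset_univ T) fun S _ hS => dif_neg (hT S hS)]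
  rw [Finset.sum_insert (by simp), Finset.sum_image fun a _ b _ hab => Finset.singleton_inj.1 hab]
  congr 1
  · have hc : (markSet (∅ : Finset (Fin r))).card = 1 := by simp [card_markSet]
    have h : (markSet (∅ : Finset (Fin r))).card ≤ 2 := by omega
    have hk : 2 - (markSet (∅ : Finset (Fin r))).card = 1 := by omega
    rw [dif_pos h, pickT_false hw]
    set ι : Fin (r + 1 + 1) → Fin (r + 1 + (2 - (markSet (∅ : Finset (Fin r))).card)) :=
      Fin.cast (by rw [hk])
    have e := hw.pull ι id (Fin.cast_injective _) Function.injective_id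
      (fun U σ => g (fun a b => U a.castSucc b.castSucc) (fun a => σ a.castSucc) *
        if U (Fin.castSucc 0) (Fin.last (r + 1)) = l then 1 else 0)
    rw [← e]
    have hcoef : (-1 : ℝ) ^ (2 - (markSet (∅ : Finset (Fin r))).card) *
        ((r + 1 + (2 - (markSet (∅ : Finset (Fin r))).card) - 1).choose
          (2 - (markSet (∅ : Finset (Fin r))).card) : ℝ) = -((r : ℝ) + 1) := by
      rw [hk]
      simp
    rw [hcoef, neg_mul]
    congr 2
    refine ev_congr hw fun U hU σ => ?_
    obtain ⟨p0, p1⟩ := pick_single h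
    have q0 : ι (Fin.castSucc 0) = Arr.pick (markSet ∅) h 0 := by
      rw [p0]
      exact Fin.ext rfl
    have q1 : ι (Fin.last (r + 1)) = Arr.pick (markSet ∅) h 1 := Fin.ext p1.symm
    have q2 : ∀ a : Fin (r + 1), ι a.castSucc = Fin.castAdd _ a := fun a => Fin.ext rfl
    simp only [q0, q1, q2, levC, hU.2.1 (Arr.pick (markSet ∅) h 1), and_self]
    rfl
  · refine Finset.sum_congr rfl fun a _ => ?_
    have hc : (markSet {a}).card = 2 := by simp [card_markSet]
    have h : (markSet {a}).card ≤ 2 := hc.le
    have hk : 2 - (markSet {a}).card = 0 := by omega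
    rw [dif_pos h, pickT_false hw]
    set ι : Fin (r + 1) → Fin (r + 1 + (2 - (markSet {a}).card)) := Fin.castAdd _
    rw [← hw.pull ι id (Fin.castAdd_injective _ _) Function.injective_id
      (fun U σ => g U σ * if U 0 a.succ = l then 1 else 0)]
    have hcoef : (-1 : ℝ) ^ (2 - (markSet {a}).card) *
        ((r + 1 + (2 - (markSet {a}).card) - 1).choose (2 - (markSet {a}).card) : ℝ) = 1 := by
      rw [hk]
      simp
    rw [hcoef, one_mul]
    refine ev_congr hw fun U hU σ => ?_
    obtain ⟨p0, p1⟩ := pick_pair a h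
    simp only [ι, levC, p0, p1, hU.2.1 (Fin.castAdd _ a.succ), and_self, id]

/-- The law of the level of a new replica relative to an old one. -/
theorem lev_law (hK : 0 < K) (hw : IsLim w) {l : Fin (K + 1)} (hl : l ≠ Fin.last K)
    (g : Tst K (r + 1) M) (a : Fin (r + 1)) :
    ((r : ℝ) + 1) * ev w (fun (U : Lvls K (r + 1 + 1)) σ =>
        g (fun a b => U a.castSucc b.castSucc) (fun a => σ a.castSucc) *
          if U a.castSucc (Fin.last (r + 1)) = l then 1 else 0) =
      gapK K * ev w g +
        ∑ b ∈ univ.erase a, ev w (fun U σ => g U σ * if U a b = l then 1 else 0) := by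
  obtain ⟨cst, hcst⟩ := ident_shape hK hw (by norm_num) (shape_levC hl) false
  have hgap : cst = -gapK K := by
    have h := hcst 0 0 (gOne K)
    rw [identE_lev hw, hw.one] at h
    have e : ev w (fun (U : Lvls K (0 + 1 + 1)) σ =>
        gOne K (fun a b => U a.castSucc b.castSucc) (fun a => σ a.castSucc) *
          if U (Fin.castSucc 0) (Fin.last (0 + 1)) = l then (1 : ℝ) else 0) = gapK K := by
      rw [← hw.gap l]
      exact ev_congr hw fun U _ σ => by simp [gOne, gLev]
    rw [e] at h
    simp only [Finset.univ_eq_empty, Finset.sum_empty] at h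
    norm_num at h
    linarith
  set e : Equiv.Perm (Fin (r + 1)) := Equiv.swap 0 a
  have he : ∀ x, e (e x) = x := fun x => Equiv.swap_apply_self 0 a x
  set g' : Tst K (r + 1) M := fun U σ => g (fun x y => U (e x) (e y)) fun x => σ (e x)
  have hg' : ev w g' = ev w g := hw.pull e id e.injective Function.injective_id g
  have h := hcst r M g'
  rw [identE_lev hw, hgap, hg'] at h
  set e' : Fin (r + 1 + 1) → Fin (r + 1 + 1) := Fin.lastCases (Fin.last _) fun x => (e x).castSucc
  have he' : Function.Injective e' := Function.LeftInverse.injective (g := e') fun x => by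
    cases x using Fin.lastCases <;> simp [e', he]
  have h1 := hw.pull e' id he' Function.injective_id (fun (U : Lvls K (r + 1 + 1)) σ =>
    g' (fun a b => U a.castSucc b.castSucc) (fun a => σ a.castSucc) *
      if U (Fin.castSucc 0) (Fin.last (r + 1)) = l then 1 else 0)
  simp only [g', e', Fin.lastCases_castSucc, Fin.lastCases_last, he, id,
    show e 0 = a from Equiv.swap_apply_left 0 a] at h1
  have h2 : ∀ b : Fin r, ev w (fun U σ => g' U σ * if U 0 b.succ = l then 1 else 0) =
      ev w (fun U σ => g U σ * if U a (e b.succ) = l then 1 else 0) := fun b => by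
    rw [← hw.pull e id e.injective Function.injective_id]
    simp only [g', he, id, show e 0 = a from Equiv.swap_apply_left 0 a]
  rw [← h1, Finset.sum_congr rfl fun b _ => h2 b] at h
  have h3 : ∑ b : Fin r, ev w (fun U σ => g U σ * if U a (e b.succ) = l then 1 else 0) =
      ∑ b ∈ univ.erase a, ev w (fun U σ => g U σ * if U a b = l then 1 else 0) := by
    rw [← Finset.sum_image (f := fun b => ev w (fun U σ => g U σ * if U a b = l then 1 else 0))
      fun x _ y _ hxy => Fin.succ_injective _ (e.injective hxy)]
    congr 1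
    ext b
    simp only [mem_image, mem_univ, true_and, mem_erase, and_true]
    constructor
    · rintro ⟨c, rfl⟩ hc
      exact Fin.succ_ne_zero c (e.injective (hc.trans (Equiv.swap_apply_left 0 a).symm))
    · intro hb
      obtain ⟨c, hc⟩ := Fin.eq_succ_of_ne_zero (i := e b) fun hc => hb (by
        rw [← he b, hc]; exact Equiv.swap_apply_left 0 a)
      exact ⟨c, by rw [← hc, he]⟩
  linarith

/-- The probability that a new replica falls in a node of an old one. -/
theorem node_law (hK : 0 < K) (hw : IsLim w) (g : Tst K (r + 1) M) (a : Fin (r + 1)) {L : ℕ}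
    (hL : L ≤ K) :
    ((r : ℝ) + 1) * ev w (fun (U : Lvls K (r + 1 + 1)) σ =>
        g (fun a b => U a.castSucc b.castSucc) (fun a => σ a.castSucc) *
          if L ≤ (U a.castSucc (Fin.last (r + 1)) : ℕ) then 1 else 0) =
      ev w (fun U σ => g U σ * (((U.node a L).card : ℝ) - mpar K L)) := by
  set T : Finset (Fin (K + 1)) := univ.filter fun l => (l : ℕ) < L
  have hsum : ∀ u : Fin (K + 1), (if L ≤ (u : ℕ) then (1 : ℝ) else 0) =
      1 - ∑ l ∈ T, if u = l then 1 else 0 := fun u => by
    rw [Finset.sum_ite_eq]
    by_cases hu : L ≤ (u : ℕ)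
    · simp [T, hu, not_lt.2 hu]
    · simp [T, hu, not_le.1 hu]
  have hT : (T.card : ℝ) * gapK K = mpar K L := by
    have : T.card = L := by
      have e : T = univ.map (Fin.castLEEmb (show L ≤ K + 1 by omega)) := by
        ext l
        simp only [T, mem_filter, mem_univ, true_and, mem_map, Fin.castLEEmb_apply]
        exact ⟨fun h => ⟨⟨l, h⟩, rfl⟩, by rintro ⟨c, rfl⟩; exact c.isLt⟩
      rw [e, card_map, card_univ, Fintype.card_fin]
    rw [this, mpar, gapK]
    ring
  have hpull : ev w (fun (U : Lvls K (r + 1 + 1)) σ =>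
      g (fun a b => U a.castSucc b.castSucc) (fun a => σ a.castSucc)) = ev w g :=
    hw.pull Fin.castSucc id (Fin.castSucc_injective _) Function.injective_id g
  simp only [hsum, mul_sub, mul_one, Finset.mul_sum, ev_sub, ev_sum]
  rw [hpull, Finset.sum_congr rfl fun l hl => lev_law hK hw
    (fun h => by
      subst h
      simp only [T, mem_filter, mem_univ, true_and, Fin.val_last] at hl
      omega) g a,
    Finset.sum_add_distrib, Finset.sum_const, nsmul_eq_mul, ← mul_assoc, hT]
  simp only [← ev_sum]
  rw [← ev_smul, ← ev_smul]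
  simp only [sub_add_eq_sub_sub, ← ev_sub]
  refine ev_congr hw fun U hU σ => ?_
  have hcount : ∑ l ∈ T, ∑ b ∈ univ.erase a, (if U a b = l then (1 : ℝ) else 0) =
      (r : ℝ) + 1 - (U.node a L).card := by
    rw [Finset.sum_comm]
    simp only [Finset.sum_ite_eq, T, mem_filter, mem_univ, true_and, Finset.sum_boole]
    have e : (univ.erase a).filter (fun b => (U a b : ℕ) < L) = univ \ U.node a L := by
      ext b
      simp only [mem_filter, mem_erase, mem_univ, and_true, mem_sdiff, Lvls.node, true_and, not_le]
      refine ⟨fun h => h.2, fun h => ⟨?_, h⟩⟩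
      rintro rfl
      rw [hU.1 b, Fin.val_last] at h
      omega
    rw [e, Finset.card_sdiff_of_subset (Finset.subset_univ _), card_univ, Fintype.card_fin,
      Nat.cast_sub ((Finset.card_le_univ _).trans_eq (Fintype.card_fin _))]
    push_cast
    ring
  rw [Finset.sum_comm] at hcount
  have hfac : ∑ x ∈ T, ∑ b ∈ univ.erase a, g U σ * (if U a b = x then 1 else 0) =
      g U σ * ((r : ℝ) + 1 - (U.node a L).card) := by
    simp only [← Finset.mul_sum]
    rw [Finset.sum_comm, hcount]
  rw [hfac]
  ring

theorem lim_one (hw : IsLim w) (M : ℕ) (U : Lvls K 1) (hU : U.IsTree) : ∑ s, w 1 M U s = 1 := by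
  rw [← hw.one, ← hw.pull id (Fin.elim0 : Fin 0 → Fin M) Function.injective_id
    (fun a => a.elim0) (gOne K), ev, Finset.sum_eq_single U]
  · simp [gOne]
  · intro V _ hV
    refine Finset.sum_eq_zero fun s _ => ?_
    rw [hw.tree 1 M V s fun hVt => hV (funext fun a => funext fun b => by
      rw [Subsingleton.elim a b, hVt.1, hU.1]), zero_mul]
  · simp

/-- A new replica attaches by the law of the trees, whatever the spins of the old ones. -/
theorem lim_step (hK : 0 < K) (hw : IsLim w) (r M : ℕ) (hr : 1 ≤ r) (U : Lvls K (r + 1))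
    (hU : U.IsTree) (s : Fin r → Fin M → Bool) :
    (∑ s' : Fin (r + 1) → Fin M → Bool,
      if (fun a => s' a.castSucc) = s then w (r + 1) M U s' else 0) = w r M U.init s * attach U := by
  classical
  obtain ⟨r, rfl⟩ := Nat.exists_eq_add_of_le' hr
  obtain ⟨b, l, hbl⟩ := exists_rowOf hr hU
  set U0 := U.init
  have hU0 : U0.IsTree := Lvls.IsTree.init hU
  set g : Tst K (r + 1) M := indT U0 s
  set A : Fin (r + 1) → ℕ → Tst K (r + 1 + 1) M := fun a L V σ =>
    g (fun a b => V a.castSucc b.castSucc) (fun a => σ a.castSucc) *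
      if L ≤ (V a.castSucc (Fin.last (r + 1)) : ℕ) then 1 else 0
  have hn : (0 : ℝ) < (r : ℝ) + 1 := by positivity
  have hA : ∀ (a : Fin (r + 1)) (L : ℕ), L ≤ K → ev w (A a L) =
      w (r + 1) M U0 s * ((((U0.node a L).card : ℝ) - mpar K L) / ((r + 1 : ℕ) : ℝ)) := by
    intro a L hL
    have h := node_law hK hw g a hL
    have e : ev w (fun V σ => g V σ * (((V.node a L).card : ℝ) - mpar K L)) =
        w (r + 1) M U0 s * (((U0.node a L).card : ℝ) - mpar K L) := by
      rw [ev, Finset.sum_eq_single U0 (fun V _ hV => Finset.sum_eq_zero fun σ _ => by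
        simp [g, indT, hV]) (by simp), Finset.sum_eq_single s (fun σ _ hσ => by
        simp [g, indT, hσ]) (by simp)]
      simp [g, indT]
    rw [e] at h
    push_cast
    rw [← mul_div_assoc, eq_div_iff hn.ne', mul_comm, ← h]
  have hLHS : (∑ s' : Fin (r + 1 + 1) → Fin M → Bool,
      if (fun a => s' a.castSucc) = s then w (r + 1 + 1) M U s' else 0) =
      ev w (fun V σ => if V = U ∧ (fun a => σ a.castSucc) = s then (1 : ℝ) else 0) := by
    rw [ev, Finset.sum_eq_single U (fun V _ hV => Finset.sum_eq_zero fun σ _ => by simp [hV])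
      (by simp)]
    exact Finset.sum_congr rfl fun σ _ => by simp
  rw [hLHS, ← hbl, Lvls.attach_rowOf hU0 b l, hbl]
  set S := U0.node b l
  calc ev w (fun V σ => if V = U ∧ (fun a => σ a.castSucc) = s then (1 : ℝ) else 0)
      = ev w (fun V σ => A b l V σ - if (l : ℕ) < K then
          ∑ a ∈ S, ((U0.node a (l + 1)).card : ℝ)⁻¹ * A a (l + 1) V σ else 0) := by
        refine ev_congr hw fun V hV σ => ?_
        by_cases hold : V.init = U0 ∧ (fun a => σ a.castSucc) = s
        swap
        · have hz : g (fun a b => V a.castSucc b.castSucc) (fun a => σ a.castSucc) = 0 :=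
            if_neg hold
          rw [if_neg fun h => hold ⟨by rw [h.1], h.2⟩]
          simp [A, hz]
        obtain ⟨hi, hσ⟩ := hold
        have h1 : g (fun a b => V a.castSucc b.castSucc) (fun a => σ a.castSucc) = 1 :=
          if_pos ⟨hi, hσ⟩
        simp only [A, h1, one_mul]
        simp only [hσ, and_true]
        have hold' : ∀ x y, V x.castSucc y.castSucc = U0 x y := fun x y =>
          congrFun (congrFun hi x) y
        set u : Fin (r + 1) → ℕ := fun x => (V x.castSucc (Fin.last (r + 1)) : ℕ)
        have hult : ∀ x y, min (U0 x y : ℕ) (u y) ≤ u x := fun x y => by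
          have h := hV.2.2 x.castSucc y.castSucc (Fin.last (r + 1))
          rw [hold', Fin.le_def, Fin.coe_min] at h
          exact h
        have hrow : V = U → ∀ x, u x = min (U0 b x : ℕ) l := fun h x => by
          simp only [u, h]
          rw [← hbl]
          simp [Lvls.rowOf]
        have hmem : ∀ x, x ∈ S ↔ (l : ℕ) ≤ (U0 b x : ℕ) := fun x => by simp [S, Lvls.node]
        have hlt : ∀ x, u x ≤ K := fun x => Fin.is_le _
        have huv : ∀ x, u x = (V x.castSucc (Fin.last (r + 1)) : ℕ) := fun _ => rfl
        by_cases hub : (l : ℕ) ≤ u b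
        swap
        · rw [if_neg fun h => hub (by rw [hrow h b, hU0.1 b]; simp [Fin.is_le]), if_neg hub]
          split_ifs with hlK
          · rw [zero_sub, eq_comm, neg_eq_zero]
            refine Finset.sum_eq_zero fun a ha => ?_
            rw [if_neg, mul_zero]
            intro hua
            have := huv a
            have := hult b a
            have := (hmem a).1 ha
            omega
          · simp
        rw [if_pos hub]
        by_cases hex : ∃ a ∈ S, (l : ℕ) + 1 ≤ u a
        · obtain ⟨a0, ha0, hua0⟩ := hex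
          have hlK : (l : ℕ) < K := by have := hlt a0; omega
          rw [if_neg fun h => by have := hrow h a0; omega, if_pos hlK]
          simp only [mul_ite, mul_one, mul_zero]
          rw [← Finset.sum_filter]
          have hf : S.filter (fun a => (l : ℕ) + 1 ≤ u a) = U0.node a0 (l + 1) := by
            ext a
            simp only [mem_filter, hmem, Lvls.node, mem_univ, true_and]
            have h0 := (hmem a0).1 ha0
            have t1 := hU0.2.2 b a0 a
            rw [Fin.le_def, Fin.coe_min] at t1
            have t2 := hult a a0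
            rw [hU0.2.1 a a0] at t2
            have t3 := hV.2.2 a0.castSucc (Fin.last (r + 1)) a.castSucc
            rw [hold', hV.2.1 (Fin.last (r + 1)) a.castSucc, Fin.le_def, Fin.coe_min] at t3
            constructor
            · intro h
              have : min (u a0) (u a) ≤ (U0 a0 a : ℕ) := t3
              omega
            · intro h
              omega
          rw [show S.filter (fun a => (l : ℕ) + 1 ≤ (V a.castSucc (Fin.last (r + 1)) : ℕ)) = _ from hf,
            Finset.sum_congr rfl fun a ha => by rw [Lvls.node_eq hU0 ha], Finset.sum_const,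
            nsmul_eq_mul, mul_inv_cancel₀, sub_self]
          exact_mod_cast (Lvls.node_pos hU0 a0 (Nat.succ_le_of_lt hlK)).ne'
        · push Not at hex
          have hbS : b ∈ S := Lvls.mem_node_self hU0 b (Fin.is_le l)
          have hmax : ∀ x, u x ≤ u b := by
            intro x
            by_contra hx
            have t := hV.2.2 b.castSucc (Fin.last (r + 1)) x.castSucc
            rw [hold', hV.2.1 (Fin.last (r + 1)) x.castSucc, Fin.le_def, Fin.coe_min] at t
            have : min (u b) (u x) ≤ (U0 b x : ℕ) := t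
            have := hex x ((hmem x).2 (by omega))
            omega
          have hV' : V = U := by
            have h := Lvls.eq_ext_rowOf (U := U0) hV hi fun x => Fin.le_def.2 (hmax x)
            rw [← h, ← hbl]
            congr 2
            exact Fin.ext (by have := hex b hbS; simp only [u] at *; omega)
          rw [if_pos hV']
          split_ifs with hlK
          · rw [Finset.sum_eq_zero fun a ha => by
              rw [if_neg (by have := hex a ha; have := huv a; omega), mul_zero],
              sub_zero]
          · rw [sub_zero]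
    _ = _ := by
        rw [ev_sub, hA b l (Fin.is_le l)]
        split_ifs with hlK
        · rw [ev_sum, mul_sub, Finset.mul_sum]
          congr 1
          refine Finset.sum_congr rfl fun a _ => ?_
          rw [ev_smul, hA a (l + 1) (Nat.succ_le_of_lt hlK)]
          ring
        · simp [ev, S]

end Vale.Agent.P168
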