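import Vale.Agent.P168.Limit.Array
import Vale.Agent.P168.Limit.Attach

/-!
P168: limit arrays exist and have the identities.
-/

open MeasureTheory ProbabilityTheory Filter Topology
open scoped NNReal ENNReal

noncomputable section

namespace Vale.Agent.P168

/-- The array of a limit of replicas has the identities. -/
theorem ident_of_lim {K : ℕ} (hK : 0 < K) {w : Wts K} (hw : IsLim w) {A : Arr K} (hsym : A.RepSym)
    (hrep : ∀ r M (g : Tst K r M), 1 ≤ r → A.rep (fun U σ => g U fun a i => σ a i) = ev w g) :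
    A.Ident := by
  refine ⟨hsym, fun q hq C hC => ?_⟩
  obtain ⟨cst, hcst⟩ := ident_shape hK hw hq hC true
  refine ⟨cst, fun n hn M f hf => ?_⟩
  obtain ⟨r, rfl⟩ : ∃ r, n = r + 1 := ⟨n - 1, by omega⟩
  set g : Tst K (r + 1) M := fun U σ => f U fun a i => if h : i < M then σ a ⟨i, h⟩ else false
  have hg : A.rep f = ev w g := by
    rw [← hrep (r + 1) M g (Nat.le_add_left 1 r)]
    refine congrArg A.rep (funext fun U => funext fun σ => hf U σ _ fun a i hi => ?_)
    simp [hi]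
  rw [hg, ← hcst r M g, Arr.identSum, identE]
  refine Finset.sum_congr rfl fun O _ => ?_
  by_cases h : (0 : Fin (r + 1)) ∈ O ∧ O.card ≤ q
  swap
  · rw [dif_neg (show ¬((⟨0, hn⟩ : Fin (r + 1)) ∈ O ∧ O.card ≤ q) from h), dif_neg h]
  rw [dif_pos (show (⟨0, hn⟩ : Fin (r + 1)) ∈ O ∧ O.card ≤ q from h), dif_pos h, ← hrep _ (M + 1) (pickT true C g O h.2) (by omega)]
  refine congrArg _ (congrArg A.rep (funext fun U => funext fun σ => ?_))
  simp only [pickT, if_true, g, Fin.val_succ, Fin.val_zero]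
  congr 2
  exact hf _ _ _ fun a i hi => by simp [hi]

/-- Parameters and subsequences with limit arrays exist. -/
theorem limitArrays : LimitArrays := by
  intro Kc μ ν _ hμp hνp hbd K hK Λ c hc nmin
  obtain ⟨L, hLμ, hLν⟩ := hbd
  have hμ' : ∀ᵐ θ ∂μ, ∀ σ, |θ σ| ≤ max L 0 :=
    hLμ.mono fun θ h σ => (h σ).trans (le_max_left L 0)
  have hν' : ∀ᵐ h ∂ν, |h| ≤ max L 0 := hLν.mono fun y h => h.trans (le_max_left L 0)
  obtain ⟨n, hn, hn1, hchoice⟩ := exists_choice μ ν (le_max_right L 0) K Λ c hc nmin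
  refine ⟨n, hn, fun obj hB hm ε hε => ?_⟩
  obtain ⟨x, hx, hobj, hfl, hgap⟩ := hchoice obj hB hm ε hε
  refine ⟨x, hx, hobj, fun φ hφ => ?_⟩
  obtain ⟨ψ, w, hψ, hw, hlim⟩ :=
    exists_lim μ ν (max L 0) K c n hn1 x hx hfl hgap φ hφ
  obtain ⟨A, hsym, hrep⟩ := exists_arr hw (lim_one hw) (lim_step hK hw)
  refine ⟨ψ, A, hψ, ident_of_lim hK hw hsym hrep, fun r M g hr => ?_⟩
  rw [hrep r M g hr]
  refine (hlim r M g).congr' ?_
  filter_upwards [eventually_ge_atTop 1] with k hk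
  have : NeZero (φ (ψ k)) := ⟨by
    have h1 := hψ.id_le k
    have h2 := hφ.id_le (ψ k)
    simp only [id] at h1 h2
    omega⟩
  have : NeZero (n (φ (ψ k))) := ⟨by have := hn1 (φ (ψ k)); omega⟩
  exact (sysRep_eq μ ν _ _ hμ' hν' (fun j => ⟨by linarith [(hx (φ (ψ k)) j).1],
    by linarith [(hx (φ (ψ k)) j).2]⟩) g).symm

end Vale.Agent.P168
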