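import Vale.Agent.P168.Conc.Expand
import Vale.Agent.P168.Conc.Choice

/-!
P168: subsequential limits of the laws of the levels and spins of replicas, and the identities of
the coefficients of the tilted averages in the limit.
-/

open MeasureTheory ProbabilityTheory Filter Topology
open scoped NNReal ENNReal

noncomputable section

namespace Vale.Agent.P168

open P157.Casc (avg gibbs com Leaf)

variable {Kc N K n r r' M M' : ℕ}

/-- Coordinates along an injection of independent variables keep their law. -/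
theorem sum_pi_comp {T α β : Type*} [Fintype T] [Fintype α] [Fintype β] [DecidableEq α]
    [DecidableEq β] (p : T → ℝ) (hp : ∑ t, p t = 1)
    {ι : α → β} (hι : Function.Injective ι) (G : (α → T) → ℝ) :
    ∑ f : β → T, (∏ b, p (f b)) * G (fun a => f (ι a)) =
      ∑ g : α → T, (∏ a, p (g a)) * G g := by
  classical
  set e : α ⊕ {b // b ∉ Set.range ι} ≃ β :=
    (Equiv.sumCongr (Equiv.ofInjective ι hι) (Equiv.refl _)).trans
      (Equiv.sumCompl fun b => b ∈ Set.range ι) with he
  have hinl : ∀ a, e (Sum.inl a) = ι a := fun a => by simp [he]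
  rw [← (Equiv.arrowCongr e (Equiv.refl T)).sum_comp,
    ← (Equiv.sumArrowEquivProdArrow α {b // b ∉ Set.range ι} T).symm.sum_comp,
    Fintype.sum_prod_type]
  refine Finset.sum_congr rfl fun g _ => ?_
  have hG : ∀ h : {b // b ∉ Set.range ι} → T,
      (∏ b, p (Equiv.arrowCongr e (Equiv.refl T)
          ((Equiv.sumArrowEquivProdArrow α {b // b ∉ Set.range ι} T).symm (g, h)) b)) *
        G (fun a => Equiv.arrowCongr e (Equiv.refl T)
          ((Equiv.sumArrowEquivProdArrow α {b // b ∉ Set.range ι} T).symm (g, h)) (ι a)) =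
      ((∏ a, p (g a)) * G g) * ∏ c, p (h c) := fun h => by
    rw [← e.prod_comp, Fintype.prod_sum_type]
    simp only [Equiv.arrowCongr_apply, Equiv.coe_refl, Function.comp_def, id, ← hinl,
      Equiv.symm_apply_apply, Equiv.sumArrowEquivProdArrow_symm_apply_inl,
      Equiv.sumArrowEquivProdArrow_symm_apply_inr]
    ring
  rw [Finset.sum_congr rfl fun h _ => hG h, ← Finset.mul_sum,
    ← Fintype.prod_sum fun (_ : {b // b ∉ Set.range ι}) => p]
  simp [hp]

/-- The indicator of given levels and spins. -/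
def indT (U : Lvls K r) (s : Fin r → Fin M → Bool) : Tst K r M :=
  fun U' σ' => if U' = U ∧ σ' = s then 1 else 0

theorem abs_indT (U : Lvls K r) (s : Fin r → Fin M → Bool) (U' : Lvls K r)
    (σ' : Fin r → Fin M → Bool) : |indT U s U' σ'| ≤ 1 := by
  unfold indT
  split_ifs <;> simp

theorem sum_indT (g : Tst K r M) :
    g = fun U' σ' => ∑ p : Lvls K r × (Fin r → Fin M → Bool),
      g p.1 p.2 * indT p.1 p.2 U' σ' := by
  funext U' σ'
  rw [Finset.sum_eq_single (U', σ')]
  · simp [indT]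
  · intro p _ hp
    have : ¬(U' = p.1 ∧ σ' = p.2) := fun h => hp (Prod.ext h.1.symm h.2.symm)
    simp [indT, this]
  · simp

section repM

variable [NeZero N] [NeZero n] (μ : Measure (Clause Kc)) (ν : Measure ℝ) [IsProbabilityMeasure μ]
  [IsProbabilityMeasure ν] (L : ℝ) (c s : ℝ≥0) (x : ℕ → ℝ)

omit [NeZero N] [IsProbabilityMeasure μ] [IsProbabilityMeasure ν] in
theorem repM_nonneg {g : Tst K r M} (hg : ∀ U σ, 0 ≤ g U σ) :
    0 ≤ repM (N := N) μ ν L c s K n x g :=
  integral_nonneg fun q => integral_nonneg fun _ => Finset.sum_nonneg fun _ _ =>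
    mul_nonneg (Finset.prod_nonneg fun _ _ => (gibbs_sW L x q).1 _) (hg _ _)

theorem repM_indT_expand (g : Tst K r M) :
    repM (N := N) μ ν L c s K n x g = ∑ p : Lvls K r × (Fin r → Fin M → Bool),
      g p.1 p.2 * repM (N := N) μ ν L c s K n x (indT p.1 p.2) := by
  set I : Lvls K r × (Fin r → Fin M → Bool) → Env Kc N K n → ℝ := fun p q =>
    ∫ site, rep1 L x (indT p.1 p.2) q site ∂unif (Fin M → Fin N)
  have hI : ∀ p, Integrable (I p) (sysLaw μ ν N c s K n) := fun p =>
    integrable_bdd (Measurable.comp (g := fun z : (ℕ → ℝ) × Env Kc N K n =>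
        ∫ site, rep1 L z.1 (indT p.1 p.2) z.2 site ∂unif (Fin M → Fin N)) (f := fun q => (x, q))
      (measurable_repInner L (indT p.1 p.2)) (measurable_const.prodMk measurable_id))
      fun q => abs_unif_avg fun site => abs_rep1 L x (abs_indT p.1 p.2) q site
  have e : ∀ q : Env Kc N K n, ∫ site, rep1 L x g q site ∂unif (Fin M → Fin N) =
      ∑ p : Lvls K r × (Fin r → Fin M → Bool), g p.1 p.2 * I p q := fun q => by
    simp only [I, ← integral_const_mul]
    rw [← integral_finsetSum _ fun _ _ => Integrable.of_finite]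
    refine integral_congr_ae (ae_of_all _ fun site => ?_)
    simp only [rep1, ← P157.Casc.avg_smul', ← P157.Casc.avg_sum']
    congr 1
    funext st
    exact congrFun (congrFun (sum_indT g) _) _
  rw [repM, integral_congr_ae (ae_of_all _ e), integral_finsetSum _ fun p _ => (hI p).const_mul _]
  exact Finset.sum_congr rfl fun p _ => integral_const_mul _ _

omit [IsProbabilityMeasure μ] [IsProbabilityMeasure ν] in
/-- Replicas and sites along injections have the same averages. -/
theorem repM_pull {ι : Fin r → Fin r'} (hι : Function.Injective ι) {τ : Fin M → Fin M'}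
    (hτ : Function.Injective τ) (g : Tst K r M) :
    repM (N := N) μ ν L c s K n x
        (fun U σ => g (fun a b => U (ι a) (ι b)) fun a i => σ (ι a) (τ i)) =
      repM (N := N) μ ν L c s K n x g := by
  refine integral_congr_ae (ae_of_all _ fun q => ?_)
  dsimp only
  have e : ∀ site : Fin M' → Fin N,
      rep1 L x (fun U σ => g (fun a b => U (ι a) (ι b)) fun a i => σ (ι a) (τ i)) q site =
        rep1 L x g q fun i => site (τ i) := fun site =>
    sum_pi_comp (gibbs (sW L x q)) (gibbs_sW L x q).2 hι (obs g fun i => site (τ i))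
  simp only [e]
  rw [← pi_unif, ← pi_unif]
  have hm := P157.mp_comp (μ := unif (Fin N)) (e := τ) hτ
  conv_rhs => rw [← hm.map_eq]
  exact (integral_map (φ := fun (site : Fin M' → Fin N) (i : Fin M) => site (τ i))
    hm.measurable.aemeasurable
    (measurable_of_finite fun site => rep1 L x g q site).aestronglyMeasurable).symm

omit [NeZero N] [NeZero n] [IsProbabilityMeasure μ] [IsProbabilityMeasure ν] in
theorem repM_tree {U : Lvls K r} (hU : ¬U.IsTree) (σ : Fin r → Fin M → Bool) :
    repM (N := N) μ ν L c s K n x (indT U σ) = 0 := by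
  have e : ∀ site, obs (K := K) (n := n) (N := N) (indT U σ) site = fun _ => 0 := fun site => by
    funext st
    refine if_neg fun h => hU ?_
    rw [← h.1]
    exact ⟨fun a => P157.Casc.com_self _, fun a b => P157.Casc.com_comm _ _,
      fun a b c => com_min _ _ _⟩
  simp [repM, rep1, e, P157.Casc.avg]

end repM

/-- Weights of the levels and spins of replicas. -/
abbrev Wts (K : ℕ) : Type := (r M : ℕ) → Lvls K r → (Fin r → Fin M → Bool) → ℝ

/-- The mean of a test. -/
def ev (w : Wts K) (g : Tst K r M) : ℝ := ∑ U, ∑ σ, w r M U σ * g U σ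

/-- The coefficient of order `d` in the expansion at the kind `P`. -/
def coefC (w : Wts K) (P : PKind) (g : Tst K (r + 1) M) (d : ℕ) : ℝ :=
  ∑ i ∈ Finset.range (d + 1), ∑ S : Finset (Fin r), if S.card + i = d then
    (-1 : ℝ) ^ i * ((i + r).choose r : ℝ) * ev w (markT P g (markSet S) i) else 0

/-- The properties of the limit of the laws of replicas. -/
structure IsLim (w : Wts K) : Prop where
  nonneg : ∀ r M U σ, 0 ≤ w r M U σ
  one : ev w (gOne K) = 1
  pull : ∀ {r r' M M' : ℕ} (ι : Fin r → Fin r') (τ : Fin M → Fin M'), Function.Injective ι →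
    Function.Injective τ → ∀ g : Tst K r M,
      ev w (fun U σ => g (fun a b => U (ι a) (ι b)) fun a i => σ (ι a) (τ i)) = ev w g
  tree : ∀ r M U σ, ¬U.IsTree → w r M U σ = 0
  gap : ∀ l, ev w (gLev K l) = gapK K
  ident : ∀ (P : PKind) (r M : ℕ) (g : Tst K (r + 1) M) (d : ℕ),
    coefC w P g d = ev w g * coefC w P (gOne K) d

/-- A polynomial of order `b ^ (d + 1)` along `b → 0` has no terms of order at most `d`. -/
theorem coef_zero {R d : ℕ} {a : ℕ → ℝ} {b : ℕ → ℝ} {C : ℝ} (hR : d < R)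
    (hb : Tendsto b atTop (𝓝 0))
    (h : ∀ᶠ m in atTop, 0 < b m ∧ |∑ k ∈ Finset.range R, a k * b m ^ k| ≤ C * b m ^ (d + 1)) :
    ∀ k ≤ d, a k = 0 := by
  intro k
  induction k using Nat.strong_induction_on with
  | _ k ih =>
    intro hk
    set F : ℕ → ℝ := fun m =>
      ∑ i ∈ Finset.range R, if i < k then 0 else a i * b m ^ (i - k)
    have hF : Tendsto F atTop (𝓝 (a k)) := by
      have h' : Tendsto F atTop
          (𝓝 (∑ i ∈ Finset.range R, if i < k then 0 else a i * (0 : ℝ) ^ (i - k))) := by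
        refine tendsto_finsetSum _ fun i _ => ?_
        split_ifs
        · exact tendsto_const_nhds
        · exact (hb.pow _).const_mul _
      rwa [Finset.sum_eq_single k (fun i _ hi => by
        split_ifs
        · rfl
        · rw [zero_pow (by omega), mul_zero])
        (fun hk' => absurd (Finset.mem_range.2 (by omega)) hk'), if_neg (lt_irrefl _),
        Nat.sub_self, pow_zero, mul_one] at h'
    refine tendsto_nhds_unique hF ?_
    refine squeeze_zero_norm' (a := fun m => C * b m ^ (d + 1 - k)) ?_ ?_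
    · filter_upwards [h] with m hm
      have e : ∑ i ∈ Finset.range R, a i * b m ^ i = b m ^ k * F m := by
        simp only [F, Finset.mul_sum]
        refine Finset.sum_congr rfl fun i _ => ?_
        split_ifs with hi
        · rw [ih i hi (by omega)]; ring
        · conv_lhs => rw [show i = k + (i - k) by omega, pow_add]
          rw [show k + (i - k) = i by omega]
          ring
      rw [Real.norm_eq_abs]
      refine le_of_mul_le_mul_left ?_ (pow_pos hm.1 k)
      rw [← abs_of_pos (pow_pos hm.1 k), ← abs_mul, ← e, abs_of_pos (pow_pos hm.1 k),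
        mul_left_comm, ← pow_add, show k + (d + 1 - k) = d + 1 by omega]
      exact hm.2
    · simpa [show d + 1 - k ≠ 0 by omega] using (hb.pow (d + 1 - k)).const_mul C

theorem tendsto_pertS : Tendsto (fun N => (pertS N : ℝ)) atTop atTop := by
  refine ((tendsto_rpow_atTop (by norm_num : (0 : ℝ) < 3 / 4)).comp
    tendsto_natCast_atTop_atTop).congr fun N => ?_
  exact (Real.coe_toNNReal _ (Real.rpow_nonneg (Nat.cast_nonneg N) _)).symm

theorem pkind_encode (P : PKind) : pkind (Encodable.encode P) = P := by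
  rw [pkind, Encodable.decode₂_encode]
  rfl

/-- Limit laws of replicas exist along a subsequence. -/
theorem exists_lim (μ : Measure (Clause Kc)) (ν : Measure ℝ) [IsProbabilityMeasure μ]
    [IsProbabilityMeasure ν] (L : ℝ) (K : ℕ) (c : ℕ → ℝ≥0) (n : ℕ → ℕ) (hn : ∀ N, 1 ≤ n N)
    (x : ℕ → ℕ → ℝ) (hx : ∀ N j, x N j ∈ Set.Icc (1 : ℝ) 2)
    (hfl : ∀ j, Tendsto (fun N => fl (N := N) μ ν L (c N) (pertS N) K (n N) j (x N) / pertS N)
      atTop (𝓝 0))
    (hgap : ∀ l, Tendsto
      (fun N => repM (N := N) μ ν L (c N) (pertS N) K (n N) (x N) (gLev K l)) atTop (𝓝 (gapK K)))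
    (φ : ℕ → ℕ) (hφ : StrictMono φ) :
    ∃ (ψ : ℕ → ℕ) (w : Wts K), StrictMono ψ ∧ IsLim w ∧ ∀ (r M : ℕ) (g : Tst K r M),
      Tendsto (fun k => repM (N := φ (ψ k)) μ ν L (c (φ (ψ k))) (pertS (φ (ψ k))) K
        (n (φ (ψ k))) (x (φ (ψ k))) g) atTop (𝓝 (ev w g)) := by
  set v : ℕ → ((Σ r : ℕ, Σ M : ℕ, Lvls K r × (Fin r → Fin M → Bool)) ⊕ ℕ) → ℝ := fun k =>
    Sum.elim (fun p => repM (N := φ (k + 1)) μ ν L (c (φ (k + 1))) (pertS (φ (k + 1))) K
      (n (φ (k + 1))) (x (φ (k + 1))) (indT p.2.2.1 p.2.2.2)) (x (φ (k + 1)))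
  have hv : ∀ k, v k ∈ Set.univ.pi fun _ => Set.Icc (-2 : ℝ) 2 := by
    intro k i _
    have : NeZero (φ (k + 1)) := ⟨by have := hφ.id_le (k + 1); simp only [id] at this; omega⟩
    have : NeZero (n (φ (k + 1))) := ⟨by have := hn (φ (k + 1)); omega⟩
    rcases i with ⟨r, M, U, σ⟩ | j
    · have h := abs_le.1 (abs_repM (N := φ (k + 1)) (n := n (φ (k + 1))) μ ν L (c (φ (k + 1)))
        (pertS (φ (k + 1))) (x (φ (k + 1))) (abs_indT U σ))
      simp only [v, Sum.elim_inl, Set.mem_Icc]
      constructor <;> linarith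
    · have := hx (φ (k + 1)) j
      simp only [v, Sum.elim_inr, Set.mem_Icc] at this ⊢
      constructor <;> linarith
  obtain ⟨a, -, θ, hθ, hva⟩ :=
    (isCompact_univ_pi fun _ => isCompact_Icc).tendsto_subseq hv
  rw [tendsto_pi_nhds] at hva
  set ψ : ℕ → ℕ := fun k => θ k + 1
  have hψ : StrictMono ψ := fun i j hij => Nat.succ_lt_succ (hθ hij)
  set Nk : ℕ → ℕ := fun k => φ (ψ k)
  have hNk : Tendsto Nk atTop atTop := (hφ.comp hψ).tendsto_atTop
  have hN0 : ∀ k, NeZero (Nk k) := fun k => ⟨by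
    have := hφ.id_le (ψ k)
    simp only [id, ψ, Nk] at this ⊢
    omega⟩
  have hn0 : ∀ k, NeZero (n (Nk k)) := fun k => ⟨by have := hn (Nk k); omega⟩
  set w : Wts K := fun r M U σ => a (Sum.inl ⟨r, M, U, σ⟩)
  have hlim : ∀ (r M : ℕ) (g : Tst K r M), Tendsto (fun k => repM (N := Nk k) μ ν L (c (Nk k))
      (pertS (Nk k)) K (n (Nk k)) (x (Nk k)) g) atTop (𝓝 (ev w g)) := by
    intro r M g
    have h : Tendsto (fun k => ∑ p : Lvls K r × (Fin r → Fin M → Bool),
        g p.1 p.2 * (v ∘ θ) k (Sum.inl ⟨r, M, p⟩)) atTop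
        (𝓝 (∑ p : Lvls K r × (Fin r → Fin M → Bool), g p.1 p.2 * a (Sum.inl ⟨r, M, p⟩))) :=
      tendsto_finsetSum _ fun p _ => (hva _).const_mul _
    have e : ev w g = ∑ p : Lvls K r × (Fin r → Fin M → Bool),
        g p.1 p.2 * a (Sum.inl ⟨r, M, p⟩) := by
      rw [Fintype.sum_prod_type]
      exact Finset.sum_congr rfl fun U _ => Finset.sum_congr rfl fun σ _ => mul_comm _ _
    rw [e]
    refine h.congr fun k => ?_
    have := hN0 k
    have := hn0 k
    exact (repM_indT_expand (N := Nk k) (n := n (Nk k)) μ ν L _ _ _ g).symm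
  refine ⟨ψ, w, hψ, ⟨fun r M U σ => ?_, ?_, fun ι τ hι hτ g => ?_, fun r M U σ hU => ?_,
    fun l => tendsto_nhds_unique (hlim 2 0 (gLev K l)) ((hgap l).comp hNk), ?_⟩, hlim⟩
  · refine ge_of_tendsto' (hva (Sum.inl ⟨r, M, U, σ⟩)) fun k => ?_
    have := hN0 k
    have := hn0 k
    exact repM_nonneg (N := Nk k) (n := n (Nk k)) μ ν L _ _ _ fun U' σ' => by
      unfold indT
      split_ifs <;> norm_num
  · refine tendsto_nhds_unique (hlim 1 0 (gOne K)) (tendsto_const_nhds.congr fun k => ?_)
    have := hN0 k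
    have := hn0 k
    exact (rep_gOne (N := Nk k) (n := n (Nk k)) μ ν L _ _ 0 _).1.symm
  · refine tendsto_nhds_unique (hlim _ _ _) ((hlim _ _ g).congr fun k => ?_)
    have := hN0 k
    have := hn0 k
    exact (repM_pull (N := Nk k) (n := n (Nk k)) μ ν L _ _ _ hι hτ g).symm
  · refine tendsto_nhds_unique (hva (Sum.inl ⟨r, M, U, σ⟩)) (tendsto_const_nhds.congr fun k => ?_)
    have := hN0 k
    have := hn0 k
    exact (repM_tree (N := Nk k) (n := n (Nk k)) μ ν L _ _ _ hU σ).symm
  -- the identities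
  intro P r M g d
  obtain ⟨D, S0, m0, sp⟩ := P
  set P : PKind := (D, S0, m0, sp)
  set xs : ℕ → ℝ := fun j => a (Sum.inr j)
  have hxs : ∀ j, xs j ∈ Set.Icc (1 : ℝ) 2 := fun j =>
    isClosed_Icc.mem_of_tendsto (hva (Sum.inr j)) (Eventually.of_forall fun k => hx _ j)
  set jm : ℕ → ℕ := fun m => Encodable.encode ((D, S0, m, sp) : PKind)
  set bm : ℕ → ℝ := fun m => Real.tanh (xs (jm m) * beta (jm m))
  have hbeta : ∀ m, beta (jm m) = ((m : ℝ) + 1)⁻¹ := fun m => by
    rw [beta, pkind_encode]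
  have hmark : ∀ (m : ℕ) {r M : ℕ} (g : Tst K (r + 1) M) O i,
      markT (pkind (jm m)) g O i = markT P g O i := fun m r M g O i => by
    rw [pkind_encode]
    rfl
  have hbm0 : ∀ m, 0 < bm m := fun m => by
    have : 0 < xs (jm m) * beta (jm m) := mul_pos (by linarith [(hxs (jm m)).1]) (beta_pos _)
    simp only [bm, Real.tanh_eq_sinh_div_cosh]
    exact div_pos (Real.sinh_pos_iff.2 this) (Real.cosh_pos _)
  have hbm : Tendsto bm atTop (𝓝 0) := by
    have h : Tendsto (fun m => xs (jm m) * beta (jm m)) atTop (𝓝 0) := by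
      refine squeeze_zero (fun m => mul_nonneg (by linarith [(hxs (jm m)).1]) (beta_pos _).le)
        (fun m => mul_le_mul_of_nonneg_right (hxs (jm m)).2 (beta_pos _).le) ?_
      simp only [hbeta]
      simpa [one_div] using (tendsto_one_div_add_atTop_nhds_zero_nat (𝕜 := ℝ)).const_mul 2
    have hc : Continuous Real.tanh := by
      simp only [funext Real.tanh_eq_sinh_div_cosh]
      exact Real.continuous_sinh.div Real.continuous_cosh fun y => (Real.cosh_pos y).ne'
    simpa [bm, Function.comp_def] using (hc.tendsto 0).comp h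
  set B : ℝ := ∑ U, ∑ σ, |g U σ|
  have hgB : ∀ U σ, |g U σ| ≤ B := fun U σ =>
    (Finset.single_le_sum (f := fun σ => |g U σ|) (fun σ _ => abs_nonneg _)
      (Finset.mem_univ σ)).trans (Finset.single_le_sum (f := fun U => ∑ σ, |g U σ|)
        (fun U _ => Finset.sum_nonneg fun σ _ => abs_nonneg _) (Finset.mem_univ U))
  -- the limit polynomial
  set pol : {r M : ℕ} → Tst K (r + 1) M → ℝ → ℝ := fun {r M} g b =>
    ∑ i ∈ Finset.range (d + 1), ∑ S : Finset (Fin r), (-1 : ℝ) ^ i * ((i + r).choose r : ℝ) *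
      b ^ (S.card + i) * ev w (markT P g (markSet S) i)
  set E1 : ℝ := B * 2 ^ r * (2 ^ (r + 1) * 2 ^ (d + 1)) + |ev w g| * (2 * 2 ^ (d + 1))
  have hbound : ∀ᶠ m in atTop,
      |pol g (bm m) - ev w g * pol (gOne K) (bm m)| ≤ E1 * bm m ^ (d + 1) := by
    filter_upwards [hbm.eventually (eventually_lt_nhds (show (0 : ℝ) < 1 / 4 by norm_num))]
      with m hm
    set j := jm m
    set κ := kindLaw.real {j}
    have hκ : 0 < κ := by simp only [κ, kindLaw_real]; positivity
    set bk : ℕ → ℝ := fun k => tiltB (x (Nk k)) j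
    have hbk : Tendsto bk atTop (𝓝 (bm m)) := by
      have h1 : ∀ k, clX (x (Nk k)) = x (Nk k) := fun k => clX_eq fun i =>
        ⟨by linarith [(hx (Nk k) i).1], by linarith [(hx (Nk k) i).2]⟩
      have hc : Continuous Real.tanh := by
        simp only [funext Real.tanh_eq_sinh_div_cosh]
        exact Real.continuous_sinh.div Real.continuous_cosh fun y => (Real.cosh_pos y).ne'
      simp only [bk, tiltB, h1]
      exact (hc.tendsto _).comp ((hva (Sum.inr j)).mul_const _)
    set pk : {r M : ℕ} → Tst K (r + 1) M → ℕ → ℝ := fun {r M} g k =>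
      polyQ (N := Nk k) μ ν L (c (Nk k)) (pertS (Nk k)) K (n (Nk k)) j (x (Nk k)) (bk k) g d
    have hpk : ∀ {r M : ℕ} (g : Tst K (r + 1) M),
        Tendsto (pk g) atTop (𝓝 (pol g (bm m))) := fun {r M} g =>
      tendsto_finsetSum _ fun i _ => tendsto_finsetSum _ fun S _ => by
        refine ((hbk.pow _).const_mul _).mul ?_
        have h := hlim _ _ (markT P g (markSet S) i)
        rw [← hmark m g (markSet S) i] at h ⊢
        exact h
    set δ : ℕ → ℝ := fun k =>
      (B * (fl (N := Nk k) μ ν L (c (Nk k)) (pertS (Nk k)) K (n (Nk k)) j (x (Nk k)) /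
          pertS (Nk k)) / (κ * beta j) + B / √((pertS (Nk k) : ℝ) * κ)) / (1 - bk k ^ 2)
    have hδ : Tendsto δ atTop (𝓝 0) := by
      have h1 := (((hfl j).comp hNk).const_mul B).div_const (κ * beta j)
      have h2 : Tendsto (fun k => B / √((pertS (Nk k) : ℝ) * κ)) atTop (𝓝 0) :=
        (Real.tendsto_sqrt_atTop.comp
          ((tendsto_pertS.comp hNk).atTop_mul_const hκ)).const_div_atTop B
      have h3 : (1 - bm m ^ 2) ≠ 0 := by nlinarith [hbm0 m]
      have h := (h1.add h2).div ((hbk.pow 2).const_sub 1) h3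
      simp only [mul_zero, zero_div, add_zero] at h
      exact h
    set R : ℕ → ℝ := fun k =>
      repM (N := Nk k) μ ν L (c (Nk k)) (pertS (Nk k)) K (n (Nk k)) (x (Nk k)) g
    set Bd : ℕ → ℝ := fun k => δ k + (B * 2 ^ r * (2 ^ (r + 1) * (2 * bk k) ^ (d + 1)) +
      |R k| * (1 * 2 ^ 0 * (2 ^ (0 + 1) * (2 * bk k) ^ (d + 1))))
    have hBd : Tendsto Bd atTop (𝓝 (E1 * bm m ^ (d + 1))) := by
      have h := hδ.add (((((hbk.const_mul 2).pow (d + 1)).const_mul (2 ^ (r + 1))).const_mul
        (B * 2 ^ r)).add ((hlim _ _ g).abs.mul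
          ((((hbk.const_mul 2).pow (d + 1)).const_mul ((2 : ℝ) ^ (0 + 1))).const_mul (1 * 2 ^ 0))))
      convert h using 2
      simp only [E1, mul_pow]
      ring
    refine le_of_tendsto_of_tendsto ((hpk g).sub ((hlim _ _ g).mul (hpk (gOne K)))).abs hBd ?_
    have hs : ∀ᶠ k in atTop, 0 < (pertS (Nk k) : ℝ) :=
      (tendsto_pertS.comp hNk).eventually_gt_atTop 0
    filter_upwards [hs, hbk.eventually (eventually_lt_nhds (show bm m < 1 / 2 by linarith)),
      hbk.eventually (eventually_gt_nhds (hbm0 m))] with k hk hb1 hb0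
    have := hN0 k
    have := hn0 k
    have hσ : 0 < (pertS (Nk k) : ℝ) * κ := mul_pos hk hκ
    have e1 := psiB_expand (N := Nk k) (n := n (Nk k)) μ ν L (c (Nk k)) (pertS (Nk k)) j
      (x (Nk k)) hb0.le hb1.le hgB d
    have e2 := psiB_expand (N := Nk k) (n := n (Nk k)) μ ν L (c (Nk k)) (pertS (Nk k)) j
      (x (Nk k)) hb0.le hb1.le (g := gOne K) (B := 1) (fun _ _ => abs_one.le) d
    have e3 := defect_le (N := Nk k) (n := n (Nk k)) μ ν L (c (Nk k)) (pertS (Nk k)) j (x (Nk k))
      hσ hgB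
    have hb2 : 0 < 1 - bk k ^ 2 := by nlinarith
    rw [mul_comm, ← le_div_iff₀ hb2] at e3
    simp only [Bd, δ, pk, R]
    set G := psiB (N := Nk k) μ ν L (c (Nk k)) (pertS (Nk k)) K (n (Nk k)) j (x (Nk k)) (bk k) g
    set O := psiB (N := Nk k) μ ν L (c (Nk k)) (pertS (Nk k)) K (n (Nk k)) j (x (Nk k)) (bk k)
      (gOne K)
    set pg := polyQ (N := Nk k) μ ν L (c (Nk k)) (pertS (Nk k)) K (n (Nk k)) j (x (Nk k)) (bk k)
      g d
    set po := polyQ (N := Nk k) μ ν L (c (Nk k)) (pertS (Nk k)) K (n (Nk k)) j (x (Nk k)) (bk k)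
      (gOne K) d
    set Rg := repM (N := Nk k) μ ν L (c (Nk k)) (pertS (Nk k)) K (n (Nk k)) (x (Nk k)) g
    calc |pg - Rg * po| = |(G - Rg * O) + (-(G - pg) + Rg * (O - po))| :=
          congrArg _ (by ring)
      _ ≤ |G - Rg * O| + (|G - pg| + |Rg| * |O - po|) := by
          refine (abs_add_le _ _).trans (add_le_add le_rfl ((abs_add_le _ _).trans ?_))
          rw [abs_neg, abs_mul]
      _ ≤ _ := add_le_add (e3.trans_eq ?_) (add_le_add e1 (mul_le_mul_of_nonneg_left e2 (abs_nonneg _)))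
    congr 2
    show B * _ / _ = B * _ / (κ * beta j)
    rw [mul_assoc (pertS (Nk k) : ℝ), ← div_div, mul_div_assoc]
  -- extraction of the coefficient
  set a' : ℕ → ℝ := fun k => (∑ i ∈ Finset.range (d + 1), ∑ S : Finset (Fin r),
      if S.card + i = k then (-1 : ℝ) ^ i * ((i + r).choose r : ℝ) *
        ev w (markT P g (markSet S) i) else 0) -
    ev w g * ∑ i ∈ Finset.range (d + 1), ∑ S : Finset (Fin 0),
      if S.card + i = k then (-1 : ℝ) ^ i * ((i + 0).choose 0 : ℝ) *
        ev w (markT P (gOne K) (markSet S) i) else 0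
  have hgrp : ∀ {r' M' : ℕ} (g' : Tst K (r' + 1) M'), r' ≤ r → ∀ b : ℝ, pol g' b =
      ∑ k ∈ Finset.range (d + r + 1), (∑ i ∈ Finset.range (d + 1), ∑ S : Finset (Fin r'),
        if S.card + i = k then (-1 : ℝ) ^ i * ((i + r').choose r' : ℝ) *
          ev w (markT P g' (markSet S) i) else 0) * b ^ k := by
    intro r' M' g' hr b
    simp only [Finset.sum_mul, ite_mul, zero_mul]
    rw [Finset.sum_comm]
    refine Finset.sum_congr rfl fun i hi => ?_
    rw [Finset.sum_comm]
    refine Finset.sum_congr rfl fun S _ => ?_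
    rw [Finset.sum_ite_eq, if_pos]
    · ring
    · have := (Finset.card_le_univ S).trans_eq (Fintype.card_fin r')
      rw [Finset.mem_range] at hi ⊢
      omega
  have h0 := coef_zero (R := d + r + 1) (a := a') (C := E1) (by omega) hbm
    (hbound.mono fun m hm => ⟨hbm0 m, by
      rwa [hgrp g le_rfl, hgrp (gOne K) (Nat.zero_le r), Finset.mul_sum,
        ← Finset.sum_sub_distrib, ← Finset.sum_congr rfl fun k _ => show a' k * bm m ^ k = _ by
          simp only [a']; ring] at hm⟩) d le_rfl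
  exact sub_eq_zero.1 h0

end Vale.Agent.P168
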